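import Vale.Agent.Lib.Dep.Poly
import Mathlib.RingTheory.AdjoinRoot

/-!
Quotients of polynomial rings by monic polynomials, and Euclidean division over fields, in the
dependent polynomial time layer.
-/

set_option linter.unusedSectionVars false

namespace Vale.Agent.Lib.Dep

open Vale.Agent.Lib.PolyTime hiding C P
open Polynomial

section Mon

variable {R : Type} [CommRing R]

/-- the leading coefficient is replaced by one -/
noncomputable def mon (g : R[X]) : R[X] := g.eraseLead + X ^ g.natDegree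

theorem mon_monic (g : R[X]) : (mon g).Monic := by
  nontriviality R
  refine (monic_X_pow _).add_of_right ?_
  rw [degree_X_pow]
  by_cases h : g = 0
  · simp [h]
  · exact (degree_eraseLead_lt h).trans_le degree_le_natDegree

theorem mon_eq {g : R[X]} (hg : g.Monic) : mon g = g := by
  conv_rhs => rw [← eraseLead_add_C_mul_X_pow g, hg.leadingCoeff, C_1, one_mul]
  rfl

theorem natDegree_mon_le (g : R[X]) : (mon g).natDegree ≤ g.natDegree :=
  (natDegree_add_le _ _).trans (max_le eraseLead_natDegree_le_aux (natDegree_X_pow_le _))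

theorem natDegree_mon [Nontrivial R] (g : R[X]) : (mon g).natDegree = g.natDegree := by
  refine le_antisymm (natDegree_mon_le g) (le_natDegree_of_ne_zero ?_)
  simp [mon]

theorem mon_eq_sub (g : R[X]) :
    mon g = g - monomial g.natDegree g.leadingCoeff + X ^ g.natDegree := by
  rw [self_sub_monomial_natDegree_leadingCoeff, mon]

theorem ht_mon_le [Code R] (g : R[X]) : ht (mon g) ≤ ht g := by
  rw [mon_eq_sub]
  exact ht_add_le_of (ht_sub_le_of le_rfl ((ht_monomial_le _ _).trans
    (max_le (natDegree_le_ht g) (ht_leadingCoeff_le g)))) ((ht_X_pow_le _).trans (natDegree_le_ht g))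

/-- the reduced representative of a residue class -/
noncomputable def rep {g : R[X]} (x : AdjoinRoot g) : R[X] :=
  (AdjoinRoot.mk_surjective x).choose %ₘ g

@[simp] theorem mk_rep {g : R[X]} (x : AdjoinRoot g) : AdjoinRoot.mk g (rep x) = x := by
  conv_rhs => rw [← (AdjoinRoot.mk_surjective x).choose_spec]
  rw [rep, AdjoinRoot.mk_eq_mk, modByMonic_eq_sub_mul_div, sub_sub_cancel_left, dvd_neg]
  exact dvd_mul_right _ _

theorem rep_injective {g : R[X]} : Function.Injective (rep : AdjoinRoot g → R[X]) :=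
  fun x y h => by rw [← mk_rep x, h, mk_rep]

theorem rep_eq {g : R[X]} (hg : g.Monic) (x : AdjoinRoot g) :
    rep x = AdjoinRoot.modByMonicHom hg x := by
  conv_rhs => rw [← (AdjoinRoot.mk_surjective x).choose_spec]
  rfl

theorem rep_mk {g : R[X]} (hg : g.Monic) (p : R[X]) : rep (AdjoinRoot.mk g p) = p %ₘ g := by
  rw [rep_eq hg, AdjoinRoot.modByMonicHom_mk]

theorem degree_rep_lt [Nontrivial R] {g : R[X]} (hg : g.Monic) (x : AdjoinRoot g) :
    (rep x).degree < g.degree := degree_modByMonic_lt _ hg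

theorem natDegree_rep_le {g : R[X]} (hg : g.Monic) (x : AdjoinRoot g) :
    (rep x).natDegree ≤ g.natDegree := natDegree_modByMonic_le _ hg

/-- A ring homomorphism on a quotient is evaluation of the representative. -/
theorem hom_eq_eval₂_rep {g : R[X]} {K : Type*} [CommRing K] (ψ : AdjoinRoot g →+* K)
    (x : AdjoinRoot g) :
    ψ x = (rep x).eval₂ (ψ.comp (AdjoinRoot.of g)) (ψ (AdjoinRoot.root g)) := by
  conv_lhs => rw [← mk_rep x, ← AdjoinRoot.aeval_eq, aeval_def, hom_eval₂]
  rfl

variable [Code R]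

noncomputable instance instCodeAdjoinRoot (g : R[X]) : Code (AdjoinRoot g) where
  enc x := enc (rep x)
  ht _ := 0
  enc_inj := fun _ _ h => rep_injective (EncInj.inj (α := R[X]) h)
  ht_zero := rfl
  ht_one := rfl
  ht_add_le _ _ := Nat.zero_le _
  ht_neg_le _ := le_rfl
  ht_mul_le _ _ := le_rfl

instance (g : R[X]) : HtZero (AdjoinRoot g) := ⟨fun _ => rfl⟩

theorem enc_adjoinRoot {g : R[X]} (x : AdjoinRoot g) : enc x = enc (rep x) := rfl

theorem ht_rep_le [HtZero R] {g : R[X]} (x : AdjoinRoot (mon g)) : ht (rep x) ≤ ht g := by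
  rw [ht_poly_eq]
  exact ((natDegree_rep_le (mon_monic g) x).trans (natDegree_mon_le g)).trans (natDegree_le_ht g)

end Mon

variable {α : Type} [Enc α] {S T : α → Type} [∀ a, CommRing (S a)] [∀ a, Code (S a)]
  [∀ a, CommRing (T a)] [∀ a, Code (T a)]

@[fun_prop]
theorem DPT.mon {g : ∀ a, (S a)[X]} (hS : PTRing S) (hg : DPT g) : DPT (fun a => mon (g a)) := by
  simp only [mon_eq_sub]
  fun_prop

@[fun_prop]
theorem DPT.rep {g : ∀ a, (S a)[X]} {x : ∀ a, AdjoinRoot (g a)} (hx : DPT x) :
    DPT (fun a => rep (x a)) := hx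

theorem DPT.mk' {g f : ∀ a, (S a)[X]} (hS : PTRing S) (hg : DPT g) (hm : ∀ a, (g a).Monic)
    (hf : DPT f) : DPT (fun a => AdjoinRoot.mk (g a) (f a)) :=
  (DPT.modByMonic hS hf hg).of_enc fun a => by rw [enc_adjoinRoot, rep_mk (hm a)]

theorem PTRing.adjoinRoot' [∀ a, HtZero (S a)] {g : ∀ a, (S a)[X]} (hS : PTRing S) (hg : DPT g)
    (hm : ∀ a, (g a).Monic) : PTRing (fun a => AdjoinRoot (g a)) where
  zero := (DPT.mk' hS hg hm hS.poly.zero).congr fun _ => map_zero _
  one := (DPT.mk' hS hg hm hS.poly.one).congr fun _ => map_one _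
  add := (DPT.mk' (S := fun p : Σ a, AdjoinRoot (g a) × AdjoinRoot (g a) => S p.1)
    (f := fun p => rep p.2.1 + rep p.2.2) (by fun_prop) (by fun_prop) (fun _ => hm _)
    (by fun_prop)).congr fun _ => by simp
  mul := (DPT.mk' (S := fun p : Σ a, AdjoinRoot (g a) × AdjoinRoot (g a) => S p.1)
    (f := fun p => rep p.2.1 * rep p.2.2) (by fun_prop) (by fun_prop) (fun _ => hm _)
    (by fun_prop)).congr fun _ => by simp
  neg := (DPT.mk' (S := fun p : Σ a, AdjoinRoot (g a) => S p.1)
    (f := fun p => - rep p.2) (by fun_prop) (by fun_prop) (fun _ => hm _)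
    (by fun_prop)).congr fun _ => by simp
  sz := by
    obtain ⟨b, hb, hb'⟩ := hS.poly.sz.pbd (pbd_natDegree hg)
    obtain ⟨c, hc⟩ := hb
    refine ⟨⟨c, fun a x => ?_⟩, fun a x => Nat.zero_le _⟩
    refine ((hb' a (rep x) ?_).trans (hc a)).trans (pb_mono c (Nat.le_add_right _ _))
    rw [ht_poly_eq]
    exact natDegree_rep_le (hm a) x

@[fun_prop]
theorem PTRing.adjoinRoot [∀ a, HtZero (S a)] {g : ∀ a, (S a)[X]} (hS : PTRing S) (hg : DPT g) :
    PTRing (fun a => AdjoinRoot (mon (g a))) :=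
  PTRing.adjoinRoot' hS (DPT.mon hS hg) fun _ => mon_monic _

@[fun_prop]
theorem ptsz_adjoinRoot [∀ a, HtZero (S a)] {g : ∀ a, (S a)[X]} (hS : PTRing S) (hg : DPT g) :
    PTSz (fun a => AdjoinRoot (mon (g a))) := (PTRing.adjoinRoot hS hg).sz

@[fun_prop]
theorem ptsz_zmod {p : α → ℕ} [∀ a, NeZero (p a)] (hp : DPT p) : PTSz (fun a => ZMod (p a)) :=
  (PTRing.zmod hp).sz

@[fun_prop]
theorem DPT.mk {g f : ∀ a, (S a)[X]} (hS : PTRing S) (hg : DPT g) (hf : DPT f) :
    DPT (fun a => AdjoinRoot.mk (Dep.mon (g a)) (f a)) :=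
  DPT.mk' hS (DPT.mon hS hg) (fun _ => mon_monic _) hf

@[fun_prop]
theorem DPT.root {g : ∀ a, (S a)[X]} (hS : PTRing S) (hg : DPT g) :
    DPT (fun a => AdjoinRoot.root (Dep.mon (g a))) := DPT.mk hS hg (DPT.X hS)

@[fun_prop]
theorem DPT.of {g : ∀ a, (S a)[X]} {c : ∀ a, S a} (hS : PTRing S) (hg : DPT g) (hc : DPT c) :
    DPT (fun a => AdjoinRoot.of (Dep.mon (g a)) (c a)) := DPT.mk hS hg (DPT.C hS hc)

@[fun_prop]
theorem DPT.algebraMap_adjoinRoot [∀ a, Algebra (S a) (T a)] {g : ∀ a, (T a)[X]} {c : ∀ a, S a}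
    (hT : PTRing T) (hg : DPT g) (hc : DPT (fun a => algebraMap (S a) (T a) (c a))) :
    DPT (fun a => algebraMap (S a) (AdjoinRoot (Dep.mon (g a))) (c a)) :=
  (DPT.of hT hg hc).congr fun a => by rw [AdjoinRoot.algebraMap_eq']; rfl

/-! ### Polynomials from lists -/

/-- the polynomial with a given list of coefficients, constant term first -/
noncomputable def ofL {R : Type} [CommRing R] (l : List R) : R[X] :=
  ∑ i ∈ Finset.range l.length, monomial i (l.getD i 0)

theorem coeff_ofL {R : Type} [CommRing R] (l : List R) (i : ℕ) : (ofL l).coeff i = l.getD i 0 := by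
  rw [ofL, finsetSum_coeff]
  simp only [coeff_monomial, Finset.sum_ite_eq', Finset.mem_range]
  split_ifs with h
  · rfl
  · rw [List.getD_eq_default _ _ (by omega)]

theorem ofL_toL {R : Type} [CommRing R] (p : R[X]) : ofL (toL p) = p := by
  ext i
  rw [coeff_ofL, getD_toL]

theorem degree_ofL_lt {R : Type} [CommRing R] (l : List R) : (ofL l).degree < l.length :=
  (degree_lt_iff_coeff_zero _ _).2 fun i hi => by
    rw [coeff_ofL, List.getD_eq_default _ _ hi]

theorem natDegree_ofL_le {R : Type} [CommRing R] (l : List R) : (ofL l).natDegree ≤ l.length :=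
  natDegree_le_of_degree_le (degree_ofL_lt l).le

theorem map_ofL {R K : Type} [CommRing R] [CommRing K] (ψ : R →+* K) (l : List R) :
    (ofL l).map ψ = ofL (l.map ψ) := by
  ext i
  rw [coeff_map, coeff_ofL, coeff_ofL, ← map_zero ψ, List.getD_map]

theorem ht_ofL_le {R : Type} [CommRing R] [Code R] (l : List R) : ht (ofL l) ≤ ht l :=
  ht_poly_le.2 ⟨(natDegree_ofL_le l).trans (length_le_ht l), fun i => by
    rw [coeff_ofL]; simpa using ht_getD_le l i 0⟩

@[fun_prop]
theorem DPT.ofL {l : ∀ a, List (S a)} (hS : PTRing S) (hl : DPT l) : DPT (fun a => ofL (l a)) := by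
  unfold Dep.ofL
  fun_prop

/-! ### Fields -/

/-- A family of fields whose operations are computable in polynomial time. -/
@[fun_prop]
structure PTField (K : α → Type) [∀ a, Field (K a)] [∀ a, Code (K a)] : Prop where
  ring : PTRing K
  inv : DPT (fun p : Σ a, K a => p.2⁻¹)

section Field

variable {K : α → Type} [∀ a, Field (K a)] [∀ a, Code (K a)]

@[fun_prop]
theorem PTField.toPTRing (hK : PTField K) : PTRing K := hK.ring

@[fun_prop]
theorem PTField.toPTSz (hK : PTField K) : PTSz K := hK.ring.sz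

@[fun_prop]
theorem PTField.comp {κ : Type} [Enc κ] {c : κ → α} (hK : PTField K) (hc : DPT c) :
    PTField (fun x => K (c x)) where
  ring := hK.ring.comp hc
  inv := DPT.comp (f := fun p : Σ x, K (c x) => (⟨c p.1, p.2⟩ : Σ a, K a)) hK.inv
    (DPT.smk (hc.comp DPT.id.sfst) DPT.ssnd)

@[fun_prop]
theorem PTRing.compField {κ : Type} [Enc κ] {c : κ → α} (hK : PTRing K) (hc : DPT c) :
    PTRing (fun x => K (c x)) := hK.comp hc

@[fun_prop]
theorem PTSz.compField {κ : Type} [Enc κ] {c : κ → α} (hK : PTSz K) (hc : DPT c) :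
    PTSz (fun x => K (c x)) := hK.comp hc

@[fun_prop]
theorem PTSz.compRing {κ : Type} [Enc κ] {c : κ → α} (hS : PTSz S) (hc : DPT c) :
    PTSz (fun x => S (c x)) := hS.comp hc

@[fun_prop]
theorem PTField.zmod {p : α → ℕ} [∀ a, Fact (p a).Prime] (hp : DPT p) :
    PTField (fun a => ZMod (p a)) where
  ring := PTRing.zmod hp
  inv := DPT.zmodInv (p := fun q : Σ a, ZMod (p a) => p q.1) (by fun_prop) DPT.ssnd

@[fun_prop]
theorem DPT.inv {f : ∀ a, K a} (hK : PTField K) (hf : DPT f) : DPT (fun a => (f a)⁻¹) :=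
  DPT.app (F := fun _ x => x⁻¹) hK.inv hf

@[fun_prop]
theorem DPT.polyMod {f g : ∀ a, (K a)[X]} (hK : PTField K) (hf : DPT f) (hg : DPT g) :
    DPT (fun a => f a % g a) := by
  simp only [mod_def]
  fun_prop

@[fun_prop]
theorem DPT.polyDiv {f g : ∀ a, (K a)[X]} (hK : PTField K) (hf : DPT f) (hg : DPT g) :
    DPT (fun a => f a / g a) := by
  simp only [div_def]
  fun_prop

open Classical in
/-- one round of the Euclidean algorithm -/
noncomputable def gcdStep {F : Type} [Field F] (s : F[X] × F[X]) : F[X] × F[X] :=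
  if s.1 = 0 then s else (s.2 % s.1, s.1)

theorem gcdStep_iterate {F : Type} [Field F] [DecidableEq F[X]] (n : ℕ) (f g : F[X])
    (h : f.degree < n) : (gcdStep^[n] (f, g)).2 = EuclideanDomain.gcd f g := by
  induction n generalizing f g with
  | zero =>
    have : f = 0 := by
      by_contra h0
      rw [degree_eq_natDegree h0] at h
      exact absurd h (by simp)
    rw [this, EuclideanDomain.gcd_zero_left]
    rfl
  | succ n ih =>
    by_cases h0 : f = 0
    · rw [Function.iterate_fixed (by simp [gcdStep, h0]), h0, EuclideanDomain.gcd_zero_left]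
    · rw [Function.iterate_succ_apply, EuclideanDomain.gcd_val, ← ih]
      · simp [gcdStep, h0]
      · refine (degree_mod_lt g h0).trans_le ?_
        rw [degree_eq_natDegree h0] at h ⊢
        exact_mod_cast Nat.lt_succ_iff.1 (by exact_mod_cast h)

theorem DPT.gcdLoop [∀ a, HtZero (K a)] {f g : ∀ a, (K a)[X]} (hK : PTField K) (hf : DPT f)
    (hg : DPT g) : DPT (fun a => gcdStep^[(f a).natDegree + 1] (f a, g a)) := by
  refine DPT.iterate_inv (β := fun a => (K a)[X] × (K a)[X]) (f := fun _ => gcdStep)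
    (by fun_prop) (by fun_prop) (by fun_prop) (by fun_prop) ?_
    (b := fun a => ht (f a, g a)) (by fun_prop) (fun _ => le_rfl) fun a u hu => ?_
  · unfold gcdStep
    fun_prop
  · unfold gcdStep
    split_ifs
    · exact hu
    · exact ht_pair_le.2 ⟨((ht_modByMonic_le' _ _).trans (ht_snd_le u)).trans hu,
        (ht_fst_le u).trans hu⟩

@[fun_prop]
theorem DPT.polyGcd [∀ a, HtZero (K a)] [∀ a, DecidableEq (K a)[X]] {f g : ∀ a, (K a)[X]}
    (hK : PTField K) (hf : DPT f) (hg : DPT g) :
    DPT (fun a => EuclideanDomain.gcd (f a) (g a)) :=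
  (DPT.gcdLoop hK hf hg).snd.congr fun a => gcdStep_iterate _ _ _
    (degree_le_natDegree.trans_lt (by exact_mod_cast Nat.lt_succ_self _))

end Field

end Vale.Agent.Lib.Dep
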