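import Vale.Agent.Lib.Dep.Adjoin
import Mathlib.NumberTheory.Padics.PadicVal.Basic

/-!
Functional parameters, algebras and some more arithmetic in the dependent polynomial time layer.
-/

set_option linter.unusedSectionVars false

namespace Vale.Agent.Lib.Dep

open Vale.Agent.Lib.PolyTime hiding C P
open Polynomial

variable {α : Type} [Enc α]

section Fn

variable {β γ δ ε : α → Type} [∀ a, Enc (β a)] [∀ a, Enc (γ a)] [∀ a, Enc (δ a)] [∀ a, Enc (ε a)]

/-- A functional parameter in the form in which `fun_prop` uses it as a local hypothesis: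
`have hl' := DPT.fn l hl`. -/
theorem DPT.fn (l : ∀ a, γ a → β a) (hl : DPT (fun p : Σ a, γ a => l p.1 p.2)) ⦃κ : Type⦄ [Enc κ]
    ⦃c : κ → α⦄ ⦃v : ∀ x, γ (c x)⦄ (hc : DPT c) (hv : DPT v) : DPT (fun x => l (c x) (v x)) :=
  DPT.comp (f := fun x => (⟨c x, v x⟩ : Σ a, γ a)) hl (DPT.smk hc hv)

theorem DPT.fn2 (l : ∀ a, γ a → δ a → β a) (hl : DPT (fun p : Σ a, γ a × δ a => l p.1 p.2.1 p.2.2))
    ⦃κ : Type⦄ [Enc κ] ⦃c : κ → α⦄ ⦃v : ∀ x, γ (c x)⦄ ⦃w : ∀ x, δ (c x)⦄ (hc : DPT c) (hv : DPT v)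
    (hw : DPT w) : DPT (fun x => l (c x) (v x) (w x)) :=
  DPT.comp (f := fun x => (⟨c x, v x, w x⟩ : Σ a, γ a × δ a)) hl (DPT.smk hc (hv.pair hw))

theorem DPT.fn3 (l : ∀ a, γ a → δ a → ε a → β a)
    (hl : DPT (fun p : Σ a, γ a × δ a × ε a => l p.1 p.2.1 p.2.2.1 p.2.2.2))
    ⦃κ : Type⦄ [Enc κ] ⦃c : κ → α⦄ ⦃v : ∀ x, γ (c x)⦄ ⦃w : ∀ x, δ (c x)⦄ ⦃u : ∀ x, ε (c x)⦄
    (hc : DPT c) (hv : DPT v) (hw : DPT w) (hu : DPT u) :
    DPT (fun x => l (c x) (v x) (w x) (u x)) :=
  DPT.comp (f := fun x => (⟨c x, v x, w x, u x⟩ : Σ a, γ a × δ a × ε a)) hl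
    (DPT.smk hc (hv.pair (hw.pair hu)))

/-- A function of a number below a polynomial bound, extended by a default value. -/
theorem DPT.fnLt {n : α → ℕ} (l : ∀ a, ℕ → β a)
    (hl : DPT (fun p : Σ a, {i // i ∈ List.range (n a)} => l p.1 p.2.1)) ⦃κ : Type⦄ [Enc κ]
    ⦃c : κ → α⦄ ⦃v : κ → ℕ⦄ (hc : DPT c) (hv : DPT v) (h : ∀ x, v x < n (c x)) :
    DPT (fun x => l (c x) (v x)) :=
  DPT.comp (f := fun x => (⟨c x, v x, List.mem_range.2 (h x)⟩ : Σ a, {i // i ∈ List.range (n a)}))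
    hl (DPT.smk hc (DPT.subMk hv))

end Fn

/-! ### Algebras -/

/-- The scalars have height zero. -/
class HtAlg (A M : Type) [CommRing A] [CommRing M] [Code M] [Algebra A M] : Prop where
  ht_algebraMap : ∀ c : A, ht (algebraMap A M c) = 0

@[simp] theorem ht_algebraMap {A M : Type} [CommRing A] [CommRing M] [Code M] [Algebra A M]
    [HtAlg A M] (c : A) : ht (algebraMap A M c) = 0 := HtAlg.ht_algebraMap c

instance (priority := 100) {A M : Type} [CommRing A] [CommRing M] [Code M] [Algebra A M]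
    [HtZero M] : HtAlg A M := ⟨fun _ => ht_eq_zero _⟩

instance {A M : Type} [CommRing A] [CommRing M] [Code M] [Algebra A M] [HtAlg A M] :
    HtAlg A M[X] := ⟨fun c => by rw [Polynomial.algebraMap_apply, ht_C, ht_algebraMap]⟩

/-- The structure map of a family of algebras is computable in polynomial time. -/
@[fun_prop]
structure PTAlg (A : α → Type) [∀ a, CommRing (A a)] [∀ a, Code (A a)] (M : α → Type)
    [∀ a, CommRing (M a)] [∀ a, Code (M a)] [∀ a, Algebra (A a) (M a)] : Prop where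
  map : DPT (fun p : Σ a, A a => algebraMap (A p.1) (M p.1) p.2)

section Alg

variable {A M : α → Type} [∀ a, CommRing (A a)] [∀ a, Code (A a)] [∀ a, CommRing (M a)]
  [∀ a, Code (M a)]

@[fun_prop]
theorem PTAlg.self (_ : PTRing A) : PTAlg A A := ⟨DPT.ssnd⟩

variable [∀ a, Algebra (A a) (M a)]

@[fun_prop]
theorem DPT.algebraMap {f : ∀ a, A a} (h : PTAlg A M) (hf : DPT f) :
    DPT (fun a => algebraMap (A a) (M a) (f a)) :=
  DPT.app (F := fun a x => Algebra.algebraMap (R := A a) (A := M a) x) h.map hf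

@[fun_prop]
theorem PTAlg.comp {κ : Type} [Enc κ] {c : κ → α} (h : PTAlg A M) (hc : DPT c) :
    PTAlg (fun x => A (c x)) (fun x => M (c x)) :=
  ⟨DPT.comp (f := fun p : Σ x, A (c x) => (⟨c p.1, p.2⟩ : Σ a, A a)) h.map
    (DPT.smk (hc.comp DPT.id.sfst) DPT.ssnd)⟩

@[fun_prop]
theorem PTAlg.poly (hM : PTRing M) (h : PTAlg A M) : PTAlg A (fun a => (M a)[X]) :=
  ⟨DPT.algebraMap_poly (S := fun p : Σ a, A a => A p.1) (T := fun p => M p.1) (by fun_prop) h.map⟩

@[fun_prop]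
theorem PTAlg.adjoinRoot {g : ∀ a, (M a)[X]} (hM : PTRing M) (hg : DPT g) (h : PTAlg A M) :
    PTAlg A (fun a => AdjoinRoot (mon (g a))) :=
  ⟨DPT.algebraMap_adjoinRoot (S := fun p : Σ a, A a => A p.1) (T := fun p => M p.1) (by fun_prop)
    (by fun_prop) h.map⟩

end Alg

/-! ### Arithmetic -/

@[fun_prop]
theorem DPT.natSum_range {n : α → ℕ} {f : α → ℕ → ℕ} (hn : DPT n) (hb : PBd n)
    (hf : DPT (fun p : Σ a, {x // x ∈ List.range (n a)} => f p.1 p.2.1)) :
    DPT (fun a => ∑ i ∈ Finset.range (n a), f a i) :=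
  (DPT.natSum (DPT.map (β := fun _ => ℕ) (hn.range hb) hf)).congr fun _ => sum_map_range _ _

theorem pbd_list_sum {γ : α → Type} [∀ a, Enc (γ a)] {l : ∀ a, List (γ a)} {f : ∀ a, γ a → ℕ}
    {b : α → ℕ} (hl : DPT l) (hb : PBd b) (h : ∀ a, ∀ x ∈ l a, f a x ≤ b a) :
    PBd (fun a => ((l a).map (f a)).sum) := by
  refine ((pbd_length hl).mul hb).mono fun a => ?_
  have := List.sum_le_card_nsmul ((l a).map (f a)) (b a) (by simpa using h a)
  simpa using this

/-- a polynomially bounded function of a list element is uniformly bounded on the list -/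
theorem pbd_bound_mem {γ : α → Type} [∀ a, Enc (γ a)] {l : ∀ a, List (γ a)} {f : ∀ a, γ a → ℕ}
    (hl : DPT l) (hf : PBd (fun p : Σ a, {x // x ∈ l a} => f p.1 p.2.1)) :
    ∃ b : α → ℕ, PBd b ∧ ∀ a, ∀ x ∈ l a, f a x ≤ b a := by
  obtain ⟨c, hc⟩ := hf
  obtain ⟨d, hd⟩ := hl.pbd
  refine ⟨fun a => pb c (2 * esize a + pb d (esize a) + 1),
    PBd.of_PB ((PB.pb c).comp ((((PB.const 2).mul PB.id).add (PB.pb d)).add (PB.const 1))),
    fun a x hx => (hc ⟨a, x, hx⟩).trans (pb_mono c ?_)⟩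
  rw [esize_sigma]
  have h1 : esize (⟨x, hx⟩ : {x // x ∈ l a}) ≤ esize (l a) := esize_le_of_mem hx
  have h2 := hd a
  beta_reduce at h2
  simp only
  omega

@[fun_prop]
theorem pbd_map_sum {γ : α → Type} [∀ a, Enc (γ a)] {l : ∀ a, List (γ a)} {f : ∀ a, γ a → ℕ}
    (hl : DPT l) (hf : PBd (fun p : Σ a, {x // x ∈ l a} => f p.1 p.2.1)) :
    PBd (fun a => ((l a).map (f a)).sum) := by
  obtain ⟨b, hb, h⟩ := pbd_bound_mem hl hf
  exact pbd_list_sum hl hb h

@[fun_prop]
theorem pbd_sum_range {n : α → ℕ} {f : α → ℕ → ℕ} (hn : DPT n) (hb : PBd n)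
    (hf : PBd (fun p : Σ a, {x // x ∈ List.range (n a)} => f p.1 p.2.1)) :
    PBd (fun a => ∑ i ∈ Finset.range (n a), f a i) :=
  (pbd_map_sum (γ := fun _ => ℕ) (hn.range hb) hf).mono fun _ => (sum_map_range _ _).ge

theorem padicValNat_lt_size {r n : ℕ} (hn : n ≠ 0) : padicValNat r n < Nat.size n := by
  rcases Nat.lt_or_ge r 2 with h | h
  · have : padicValNat r n = 0 := by
      interval_cases r <;> simp
    rw [this]
    exact Nat.size_pos.2 (Nat.pos_of_ne_zero hn)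
  · refine Nat.lt_size.2 (le_trans (Nat.pow_le_pow_left h _) ?_)
    exact Nat.le_of_dvd (Nat.pos_of_ne_zero hn) pow_padicValNat_dvd

@[fun_prop]
theorem pbd_padicValNat {r n : α → ℕ} (hn : DPT n) : PBd (fun a => padicValNat (r a) (n a)) :=
  (pbd_size hn).mono fun a => by
    by_cases h : n a = 0
    · simp [h]
    · exact (padicValNat_lt_size h).le

theorem padicValNat_eq_find (r n : ℕ) : padicValNat r n = if r = 1 then 0 else
    ((List.range (Nat.size n)).find? fun i => decide (¬ r ^ (i + 1) ∣ n)).getD 0 := by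
  split_ifs with h1
  · simp [h1]
  by_cases hn : n = 0
  · simp [hn]
  have : (List.range (Nat.size n)).find? (fun i => decide (¬ r ^ (i + 1) ∣ n)) =
      some (padicValNat r n) := by
    rw [List.find?_range_eq_some]
    refine ⟨?_, List.mem_range.2 (padicValNat_lt_size hn), fun j hj => ?_⟩
    · simp only [decide_eq_true_eq]
      intro h
      have := (padicValNat_dvd_iff_le_of_ne_one h1 hn).1 h
      omega
    · simp only [decide_not, Bool.not_not, decide_eq_true_eq]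
      exact (padicValNat_dvd_iff_le_of_ne_one h1 hn).2 hj
  rw [this]
  rfl

@[fun_prop]
theorem DPT.padicValNat {r n : α → ℕ} (hr : DPT r) (hn : DPT n) :
    DPT (fun a => padicValNat (r a) (n a)) := by
  simp only [padicValNat_eq_find]
  fun_prop

@[fun_prop]
theorem DPT.factorial {n : α → ℕ} (hn : DPT n) (hb : PBd n) : DPT (fun a => (n a).factorial) :=
  PT.factorial hn hb

@[fun_prop]
theorem DPT.choose {n k : α → ℕ} (hn : DPT n) (hb : PBd n) (hk : DPT k) :
    DPT (fun a => (n a).choose (k a)) := by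
  have h1 : DPT (fun a => if k a ≤ n a then
      (n a).factorial / ((min (n a) (k a)).factorial * (n a - k a).factorial) else 0) := by
    fun_prop
  refine h1.congr fun a => ?_
  split_ifs with h
  · rw [min_eq_right h, Nat.choose_eq_factorial_div_factorial h]
  · rw [Nat.choose_eq_zero_of_lt (by omega)]

end Vale.Agent.Lib.Dep
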