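import Vale.Agent.Lib.PCP.PT.Fin

/-!
Polynomial time for dependent functions. `DPT f`: the dependent function `f` is computable in
polynomial time with respect to the codes; `DPr p`: the predicate `p` is decidable in polynomial
time. Contexts are extended by sigma types. All closure lemmas are usable by `fun_prop`.
-/

namespace Vale.Agent.Lib.Dep

open Vale.Agent.Lib.PolyTime hiding C P

/-- The dependent function `f` is computable in polynomial time. -/
@[fun_prop]
def DPT {α : Type} [Enc α] {β : α → Type} [∀ a, Enc (β a)] (f : ∀ a, β a) : Prop :=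
  ∃ g : Word → Word, FP ∅ g ∧ ∀ a, g (enc a) = enc (f a)

open Classical in
/-- The predicate `p` is decidable in polynomial time. -/
@[fun_prop]
def DPr {α : Type} [Enc α] (p : α → Prop) : Prop := PT ∅ (fun a => decide (p a))

instance instEncSigma {α : Type} [Enc α] {β : α → Type} [∀ a, Enc (β a)] : Enc (Σ a, β a) :=
  ⟨fun p => pr (enc p.1) (enc p.2)⟩

variable {α : Type} [Enc α] {β γ δ : α → Type} [∀ a, Enc (β a)] [∀ a, Enc (γ a)] [∀ a, Enc (δ a)]

theorem enc_sigma (a : α) (b : β a) : enc (⟨a, b⟩ : Σ a, β a) = pr (enc a) (enc b) := rfl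

theorem esize_sigma (p : Σ a, β a) : esize p = 2 * esize p.1 + esize p.2 + 1 := by
  obtain ⟨a, b⟩ := p
  simp [esize, enc_sigma]

theorem DPT.toPT {κ : Type} [Enc κ] {f : α → κ} (hf : DPT f) : PT ∅ f := hf

theorem DPT.ofPT {κ : Type} [Enc κ] {f : α → κ} (hf : PT ∅ f) : DPT f := hf

/-- Only the codes of the values matter. -/
theorem DPT.of_enc {f : ∀ a, β a} {g : ∀ a, γ a} (hf : DPT f) (h : ∀ a, enc (f a) = enc (g a)) :
    DPT g := by
  obtain ⟨F, hF, hF'⟩ := hf
  exact ⟨F, hF, fun a => by rw [hF', h]⟩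

theorem DPT.congr {f g : ∀ a, β a} (hf : DPT f) (h : ∀ a, f a = g a) : DPT g :=
  hf.of_enc fun a => by rw [h]

/-- the code as an object -/
def raw {κ : Type} [Enc κ] (x : κ) : Raw := ⟨enc x⟩

theorem enc_raw' {κ : Type} [Enc κ] (x : κ) : enc (raw x) = enc x := rfl

theorem enc_map_raw {κ : Type} [Enc κ] (l : List κ) : enc (l.map raw) = enc l := by
  induction l with
  | nil => rfl
  | cons a l ih => rw [List.map_cons, enc_cons, enc_cons, ih, enc_raw']

theorem DPT.rawPT {f : ∀ a, β a} (hf : DPT f) : PT ∅ (fun a => raw (f a)) := hf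

theorem DPT.listPT {l : ∀ a, List (β a)} (hl : DPT l) : PT ∅ (fun a => (l a).map raw) :=
  (hl.of_enc (g := fun a => (l a).map raw) fun _ => (enc_map_raw _).symm).toPT

theorem DPT.of_listPT {l : ∀ a, List (β a)} {L : α → List Raw} (hL : PT ∅ L)
    (h : ∀ a, L a = (l a).map raw) : DPT l :=
  (DPT.ofPT hL).of_enc fun a => by rw [h, enc_map_raw]

theorem DPT.of_rawPT {f : ∀ a, β a} {F : α → Raw} (hF : PT ∅ F) (h : ∀ a, F a = raw (f a)) :
    DPT f :=
  (DPT.ofPT hF).of_enc fun a => by rw [h, enc_raw']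

theorem DPT.pbd {f : ∀ a, β a} (hf : DPT f) : PBd (fun a => esize (f a)) := hf.rawPT.pbd

/-! ### Identity, constants, composition, pairs -/

@[fun_prop]
theorem DPT.id : DPT (fun a : α => a) := ⟨_, FP.id, fun _ => rfl⟩

@[fun_prop]
theorem DPT.const {κ : Type} [Enc κ] (b : κ) : DPT (fun _ : α => b) :=
  ⟨_, FP.const (enc b), fun _ => rfl⟩

@[fun_prop]
theorem DPT.comp {κ : Type} [Enc κ] {g : ∀ a, β a} {f : κ → α} (hg : DPT g) (hf : DPT f) :
    DPT (fun x => g (f x)) := by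
  obtain ⟨G, hG, hG'⟩ := hg
  obtain ⟨F, hF, hF'⟩ := hf
  exact ⟨_, hG.comp hF, fun a => by rw [hF', hG']⟩

@[fun_prop]
theorem DPT.pair {f : ∀ a, β a} {g : ∀ a, γ a} (hf : DPT f) (hg : DPT g) :
    DPT (fun a => (f a, g a)) := by
  obtain ⟨G, hG, hG'⟩ := hg
  obtain ⟨F, hF, hF'⟩ := hf
  exact ⟨_, hF.pair hG, fun a => by rw [hF', hG', enc_pair]⟩

@[fun_prop]
theorem DPT.fst {f : ∀ a, β a × γ a} (hf : DPT f) : DPT (fun a => (f a).1) := by
  obtain ⟨F, hF, hF'⟩ := hf
  exact ⟨_, FP.fst.comp hF, fun a => by rw [hF']; exact fstW_pr _ _⟩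

@[fun_prop]
theorem DPT.snd {f : ∀ a, β a × γ a} (hf : DPT f) : DPT (fun a => (f a).2) := by
  obtain ⟨F, hF, hF'⟩ := hf
  exact ⟨_, FP.snd.comp hF, fun a => by rw [hF']; exact sndW_pr _ _⟩

@[fun_prop]
theorem DPT.sfst {κ : Type} [Enc κ] {f : κ → Σ a, β a} (hf : DPT f) : DPT (fun x => (f x).1) := by
  obtain ⟨F, hF, hF'⟩ := hf
  exact ⟨_, FP.fst.comp hF, fun a => by rw [hF']; exact fstW_pr _ _⟩

@[fun_prop]
theorem DPT.ssnd : DPT (fun p : Σ a, β a => p.2) := ⟨_, FP.snd, fun _ => sndW_pr _ _⟩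

@[fun_prop]
theorem DPT.smk {κ : Type} [Enc κ] {f : κ → α} {g : ∀ x, β (f x)} (hf : DPT f) (hg : DPT g) :
    DPT (fun x => (⟨f x, g x⟩ : Σ a, β a)) := by
  obtain ⟨G, hG, hG'⟩ := hg
  obtain ⟨F, hF, hF'⟩ := hf
  exact ⟨_, hF.pair hG, fun a => by rw [hF', hG']; rfl⟩

@[fun_prop]
theorem DPT.val {p : ∀ a, β a → Prop} {f : ∀ a, Subtype (p a)} (hf : DPT f) :
    DPT (fun a => (f a).1) := hf

@[fun_prop]
theorem DPT.subMk {p : ∀ a, β a → Prop} {f : ∀ a, β a} {h : ∀ a, p a (f a)} (hf : DPT f) :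
    DPT (fun a => (⟨f a, h a⟩ : Subtype (p a))) := hf

/-- Substitution of a computed value in a function with an extended context. -/
theorem DPT.app {F : ∀ a, γ a → β a} {f : ∀ a, γ a} (hF : DPT (fun p : Σ a, γ a => F p.1 p.2))
    (hf : DPT f) : DPT (fun a => F a (f a)) :=
  DPT.comp (f := fun a => (⟨a, f a⟩ : Σ a, γ a)) hF (DPT.smk DPT.id hf)

theorem DPT.app2 {F : ∀ a, γ a → δ a → β a} {f : ∀ a, γ a} {g : ∀ a, δ a}
    (hF : DPT (fun p : Σ a, γ a × δ a => F p.1 p.2.1 p.2.2)) (hf : DPT f) (hg : DPT g) :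
    DPT (fun a => F a (f a) (g a)) :=
  DPT.comp (f := fun a => (⟨a, f a, g a⟩ : Σ a, γ a × δ a)) hF (DPT.smk DPT.id (hf.pair hg))

/-! ### Polynomially bounded numbers -/

@[fun_prop]
theorem pbd_comp {κ : Type} [Enc κ] {b : α → ℕ} {f : κ → α} (hb : PBd b) (hf : DPT f) :
    PBd (fun x => b (f x)) := hb.comp hf.toPT

@[fun_prop]
theorem pbd_esize {f : ∀ a, β a} (hf : DPT f) : PBd (fun a => esize (f a)) := hf.pbd

@[fun_prop]
theorem pbd_length {f : ∀ a, List (β a)} (hf : DPT f) : PBd (fun a => (f a).length) :=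
  hf.pbd.mono fun _ => length_le_esize _

@[fun_prop]
theorem pbd_sub {f g : α → ℕ} (hf : PBd f) : PBd (fun a => f a - g a) :=
  hf.mono fun _ => Nat.sub_le _ _

@[fun_prop]
theorem pbd_div {f g : α → ℕ} (hf : PBd f) : PBd (fun a => f a / g a) :=
  hf.mono fun _ => Nat.div_le_self _ _

@[fun_prop]
theorem pbd_mod {f g : α → ℕ} (hf : PBd f) : PBd (fun a => f a % g a) :=
  hf.mono fun _ => Nat.mod_le _ _

theorem pbd_mod' {f g : α → ℕ} (hg : PBd g) (h : ∀ a, 0 < g a) : PBd (fun a => f a % g a) :=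
  hg.mono fun a => (Nat.mod_lt _ (h a)).le

@[fun_prop]
theorem pbd_max {f g : α → ℕ} (hf : PBd f) (hg : PBd g) : PBd (fun a => max (f a) (g a)) :=
  (hf.add hg).mono fun _ => by omega

@[fun_prop]
theorem pbd_min {f g : α → ℕ} (hf : PBd f) : PBd (fun a => min (f a) (g a)) :=
  hf.mono fun _ => min_le_left _ _

@[fun_prop]
theorem pbd_min' {f g : α → ℕ} (hg : PBd g) : PBd (fun a => min (f a) (g a)) :=
  hg.mono fun _ => min_le_right _ _

@[fun_prop]
theorem pbd_succ {f : α → ℕ} (hf : PBd f) : PBd (fun a => Nat.succ (f a)) :=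
  (hf.add (PBd.const 1)).mono fun _ => le_rfl

@[fun_prop]
theorem pbd_size {f : α → ℕ} (hf : DPT f) : PBd (fun a => Nat.size (f a)) :=
  hf.pbd.mono fun _ => (esize_nat _).ge

@[fun_prop]
theorem pbd_ite {p : α → Prop} [∀ a, Decidable (p a)] {f g : α → ℕ} (hf : PBd f) (hg : PBd g) :
    PBd (fun a => if p a then f a else g a) :=
  (hf.add hg).mono fun a => by split_ifs <;> omega

@[fun_prop]
theorem pbd_minFac {f : α → ℕ} (hf : PBd f) : PBd (fun a => (f a).minFac) :=
  (hf.add (PBd.const 2)).mono fun a => by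
    rcases Nat.eq_zero_or_pos (f a) with h | h
    · rw [h]; simp
    · have := Nat.minFac_le h; omega

@[fun_prop]
theorem pbd_mem_range {n : α → ℕ} {f : ∀ a, {x // x ∈ List.range (n a)}} (hn : PBd n) :
    PBd (fun a => (f a).1) :=
  hn.mono fun a => (List.mem_range.1 (f a).2).le

@[fun_prop]
theorem pbd_mem_finsetRange {n : α → ℕ} {f : ∀ a, {x // x ∈ Finset.range (n a)}} (hn : PBd n) :
    PBd (fun a => (f a).1) :=
  hn.mono fun a => (Finset.mem_range.1 (f a).2).le

@[fun_prop]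
theorem pbd_lt {n : α → ℕ} {f : ∀ a, {x // x < n a}} (hn : PBd n) : PBd (fun a => (f a).1) :=
  hn.mono fun a => (f a).2.le

@[fun_prop]
theorem pbd_le {n : α → ℕ} {f : ∀ a, {x // x ≤ n a}} (hn : PBd n) : PBd (fun a => (f a).1) :=
  hn.mono fun a => (f a).2

/-! ### Predicates and case distinctions -/

@[fun_prop]
theorem DPT.decide {p : α → Prop} [∀ a, Decidable (p a)] (hp : DPr p) :
    DPT (fun a => decide (p a)) :=
  (DPT.ofPT hp).congr fun a => by congr

theorem DPr.of_decide {p : α → Prop} [∀ a, Decidable (p a)] (hp : DPT (fun a => decide (p a))) :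
    DPr p := hp.toPT.congr fun a => by congr

theorem DPr.congr {p q : α → Prop} (hp : DPr p) (h : ∀ a, p a ↔ q a) : DPr q := by
  have : p = q := funext fun a => propext (h a)
  rwa [← this]

@[fun_prop]
theorem DPr.const (q : Prop) : DPr (fun _ : α => q) := PT.const _

@[fun_prop]
theorem DPr.comp {κ : Type} [Enc κ] {p : α → Prop} {f : κ → α} (hp : DPr p) (hf : DPT f) :
    DPr (fun x => p (f x)) := PT.comp hp hf.toPT

@[fun_prop]
theorem DPr.not {p : α → Prop} (hp : DPr p) : DPr (fun a => ¬ p a) := by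
  classical
  exact DPr.of_decide (PT.decide_not (DPT.decide hp).toPT)

@[fun_prop]
theorem DPr.and {p q : α → Prop} (hp : DPr p) (hq : DPr q) : DPr (fun a => p a ∧ q a) := by
  classical
  exact DPr.of_decide (PT.decide_and (DPT.decide hp).toPT (DPT.decide hq).toPT)

@[fun_prop]
theorem DPr.or {p q : α → Prop} (hp : DPr p) (hq : DPr q) : DPr (fun a => p a ∨ q a) := by
  classical
  exact DPr.of_decide (PT.decide_or (DPT.decide hp).toPT (DPT.decide hq).toPT)

@[fun_prop]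
theorem DPr.eq [∀ a, EncInj (β a)] {f g : ∀ a, β a} (hf : DPT f) (hg : DPT g) :
    DPr (fun a => f a = g a) := by
  classical
  refine DPr.of_decide ((DPT.ofPT (PT.eqNat hf.rawPT.wcode hg.rawPT.wcode)).congr fun a => ?_)
  rw [Bool.eq_iff_iff, decide_eq_true_eq, decide_eq_true_eq]
  exact ⟨fun h => EncInj.inj (wcode_inj h), fun h => by rw [h]⟩

@[fun_prop]
theorem DPr.ne [∀ a, EncInj (β a)] {f g : ∀ a, β a} (hf : DPT f) (hg : DPT g) :
    DPr (fun a => f a ≠ g a) := (DPr.eq hf hg).not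

@[fun_prop]
theorem DPr.lt {f g : α → ℕ} (hf : DPT f) (hg : DPT g) : DPr (fun a => f a < g a) :=
  DPr.of_decide (PT.lt hf hg)

@[fun_prop]
theorem DPr.le {f g : α → ℕ} (hf : DPT f) (hg : DPT g) : DPr (fun a => f a ≤ g a) :=
  DPr.of_decide (PT.le hf hg)

@[fun_prop]
theorem DPr.dvd {f g : α → ℕ} (hf : DPT f) (hg : DPT g) : DPr (fun a => f a ∣ g a) :=
  DPr.of_decide (PT.decDvd hf hg)

@[fun_prop]
theorem DPT.cond {c : α → Bool} {f g : ∀ a, β a} (hc : DPT c) (hf : DPT f) (hg : DPT g) :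
    DPT (fun a => bif c a then f a else g a) :=
  DPT.of_rawPT (PT.cond hc.toPT hf.rawPT hg.rawPT) fun a => by cases c a <;> rfl

@[fun_prop]
theorem DPT.ite {p : α → Prop} [∀ a, Decidable (p a)] {f g : ∀ a, β a} (hp : DPr p) (hf : DPT f)
    (hg : DPT g) : DPT (fun a => if p a then f a else g a) :=
  ((DPT.decide hp).cond hf hg).congr fun a => by by_cases h : p a <;> simp [h]

@[fun_prop]
theorem DPT.not {f : α → Bool} (hf : DPT f) : DPT (fun a => !(f a)) := PT.not hf

@[fun_prop]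
theorem DPT.and {f g : α → Bool} (hf : DPT f) (hg : DPT g) : DPT (fun a => f a && g a) :=
  PT.and hf hg

@[fun_prop]
theorem DPT.or {f g : α → Bool} (hf : DPT f) (hg : DPT g) : DPT (fun a => f a || g a) :=
  PT.or hf hg

/-! ### Numbers -/

section Nat

variable {f g : α → ℕ}

@[fun_prop]
theorem DPT.natAdd (hf : DPT f) (hg : DPT g) : DPT (fun a => f a + g a) := PT.add hf hg

@[fun_prop]
theorem DPT.natSub (hf : DPT f) (hg : DPT g) : DPT (fun a => f a - g a) := PT.sub hf hg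

@[fun_prop]
theorem DPT.natMul (hf : DPT f) (hg : DPT g) : DPT (fun a => f a * g a) := PT.mul hf hg

@[fun_prop]
theorem DPT.natDiv (hf : DPT f) (hg : DPT g) : DPT (fun a => f a / g a) := PT.div hf hg

@[fun_prop]
theorem DPT.natMod (hf : DPT f) (hg : DPT g) : DPT (fun a => f a % g a) := PT.mod hf hg

@[fun_prop]
theorem DPT.natPow (hf : DPT f) (hg : DPT g) (hb : PBd g) : DPT (fun a => f a ^ g a) :=
  PT.pow hf hg hb

@[fun_prop]
theorem DPT.natSucc (hf : DPT f) : DPT (fun a => Nat.succ (f a)) := PT.succ hf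

@[fun_prop]
theorem DPT.natMax (hf : DPT f) (hg : DPT g) : DPT (fun a => max (f a) (g a)) := PT.max hf hg

@[fun_prop]
theorem DPT.natMin (hf : DPT f) (hg : DPT g) : DPT (fun a => min (f a) (g a)) := PT.min hf hg

@[fun_prop]
theorem DPT.natSize (hf : DPT f) : DPT (fun a => Nat.size (f a)) := PT.natSize hf

@[fun_prop]
theorem DPT.natGcd (hf : DPT f) (hg : DPT g) : DPT (fun a => Nat.gcd (f a) (g a)) := PT.gcd hf hg

@[fun_prop]
theorem DPT.testBit (hf : DPT f) (hg : DPT g) : DPT (fun a => (f a).testBit (g a)) :=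
  PT.testBit hf hg

@[fun_prop]
theorem DPT.natBits (hf : DPT f) : DPT (fun a => (f a).bits) := PT.natBits hf

@[fun_prop]
theorem DPT.esize {f : ∀ a, β a} (hf : DPT f) : DPT (fun a => esize (f a)) := PT.size hf.rawPT

/-- modular exponentiation, exponent in binary -/
theorem DPT.powMod {m : α → ℕ} (hf : DPT f) (hg : DPT g) (hm : DPT m) (h0 : ∀ a, 0 < m a) :
    DPT (fun a => f a ^ g a % m a) := PT.powModPos hf hg hm h0

end Nat

end Vale.Agent.Lib.Dep
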