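import Vale.Agent.Lib.Dep.Basic

/-!
Lists, options and loops in the dependent polynomial time layer.
-/

namespace Vale.Agent.Lib.Dep

open Vale.Agent.Lib.PolyTime hiding C P

variable {α : Type} [Enc α] {β γ δ : α → Type} [∀ a, Enc (β a)] [∀ a, Enc (γ a)] [∀ a, Enc (δ a)]

/-! ### Lifting functions on list elements to functions on codes -/

theorem DPT.lift {l : ∀ a, List (γ a)} {f : ∀ a, γ a → β a}
    (hf : DPT (fun p : Σ a, {x // x ∈ l a} => f p.1 p.2.1)) :
    ∃ F : α → Raw → Raw, PT ∅ (fun p : α × Raw => F p.1 p.2) ∧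
      ∀ a, ∀ x ∈ l a, F a (raw x) = raw (f a x) := by
  obtain ⟨G, hG, hG'⟩ := hf
  refine ⟨fun a w => ⟨G (pr (enc a) w.w)⟩, ⟨G, hG, fun _ => rfl⟩, fun a x hx => ?_⟩
  exact congrArg Raw.mk (hG' ⟨a, x, hx⟩)

theorem DPT.liftBool {l : ∀ a, List (γ a)} {f : ∀ a, γ a → Bool}
    (hf : DPT (fun p : Σ a, {x // x ∈ l a} => f p.1 p.2.1)) :
    ∃ F : α → Raw → Bool, PT ∅ (fun p : α × Raw => F p.1 p.2) ∧
      ∀ a, ∀ x ∈ l a, F a (raw x) = f a x := by
  obtain ⟨F, hF, hF'⟩ := DPT.lift (β := fun _ => Bool) (f := f) hf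
  refine ⟨fun a w => hd (F a w).w, PT.rawHd hF, fun a x hx => ?_⟩
  exact congrArg (fun w : Raw => hd w.w) (hF' a x hx)

/-! ### Constructors and destructors -/

@[fun_prop]
theorem DPT.nil : DPT (fun a => ([] : List (β a))) := ⟨_, FP.nil, fun _ => rfl⟩

@[fun_prop]
theorem DPT.cons {f : ∀ a, β a} {l : ∀ a, List (β a)} (hf : DPT f) (hl : DPT l) :
    DPT (fun a => f a :: l a) := (hf.pair hl).of_enc fun _ => rfl

@[fun_prop]
theorem DPT.append {l m : ∀ a, List (β a)} (hl : DPT l) (hm : DPT m) :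
    DPT (fun a => l a ++ m a) :=
  DPT.of_listPT (PT.append hl.listPT hm.listPT) fun _ => by rw [List.map_append]

@[fun_prop]
theorem DPT.length {l : ∀ a, List (β a)} (hl : DPT l) : DPT (fun a => (l a).length) :=
  (DPT.ofPT (PT.length hl.listPT)).congr fun _ => List.length_map _

@[fun_prop]
theorem DPT.reverse {l : ∀ a, List (β a)} (hl : DPT l) : DPT (fun a => (l a).reverse) :=
  DPT.of_listPT (PT.reverse hl.listPT) fun _ => by rw [List.map_reverse]

@[fun_prop]
theorem DPT.tail {l : ∀ a, List (β a)} (hl : DPT l) : DPT (fun a => (l a).tail) :=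
  DPT.of_listPT (PT.tail hl.listPT) fun _ => by rw [List.map_tail]

@[fun_prop]
theorem DPT.take {l : ∀ a, List (β a)} {i : α → ℕ} (hl : DPT l) (hi : DPT i) :
    DPT (fun a => (l a).take (i a)) :=
  DPT.of_listPT (PT.take hl.listPT hi) fun _ => by rw [List.map_take]

@[fun_prop]
theorem DPT.drop {l : ∀ a, List (β a)} {i : α → ℕ} (hl : DPT l) (hi : DPT i) :
    DPT (fun a => (l a).drop (i a)) :=
  DPT.of_listPT (PT.drop hl.listPT hi) fun _ => by rw [List.map_drop]

@[fun_prop]
theorem DPT.headD {l : ∀ a, List (β a)} {d : ∀ a, β a} (hl : DPT l) (hd : DPT d) :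
    DPT (fun a => (l a).headD (d a)) :=
  DPT.of_rawPT (PT.headD hl.listPT hd.rawPT) fun a => by cases l a <;> rfl

@[fun_prop]
theorem DPT.getD {l : ∀ a, List (β a)} {i : α → ℕ} {d : ∀ a, β a} (hl : DPT l) (hi : DPT i)
    (hd : DPT d) : DPT (fun a => (l a).getD (i a) (d a)) :=
  DPT.of_rawPT (PT.getD hl.listPT hi hd.rawPT) fun a => by rw [List.getD_map]

@[fun_prop]
theorem DPT.isEmpty {l : ∀ a, List (β a)} (hl : DPT l) : DPT (fun a => (l a).isEmpty) :=
  (DPT.ofPT (PT.isEmpty hl.listPT)).congr fun a => by cases l a <;> rfl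

@[fun_prop]
theorem DPT.range {n : α → ℕ} (hn : DPT n) (hb : PBd n) : DPT (fun a => List.range (n a)) :=
  PT.range hn hb

@[fun_prop]
theorem DPT.replicate {n : α → ℕ} {f : ∀ a, β a} (hn : DPT n) (hb : PBd n) (hf : DPT f) :
    DPT (fun a => List.replicate (n a) (f a)) :=
  DPT.of_listPT (PT.replicate hn hb hf.rawPT) fun _ => by rw [List.map_replicate]

@[fun_prop]
theorem DPT.zip {l : ∀ a, List (β a)} {m : ∀ a, List (γ a)} (hl : DPT l) (hm : DPT m) :
    DPT (fun a => (l a).zip (m a)) := by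
  refine (DPT.ofPT (PT.zip hl.listPT hm.listPT)).of_enc fun a => ?_
  generalize l a = x
  generalize m a = y
  induction x generalizing y with
  | nil => rfl
  | cons b x ih =>
    cases y with
    | nil => rfl
    | cons c y =>
      rw [List.map_cons, List.map_cons, List.zip_cons_cons, List.zip_cons_cons, enc_cons, enc_cons,
        ih]
      rfl

@[fun_prop]
theorem DPT.natSum {l : α → List ℕ} (hl : DPT l) : DPT (fun a => (l a).sum) := PT.sum hl

/-! ### Options -/

@[fun_prop]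
theorem DPT.none : DPT (fun a => (Option.none : Option (β a))) := ⟨_, FP.nil, fun _ => rfl⟩

@[fun_prop]
theorem DPT.some {f : ∀ a, β a} (hf : DPT f) : DPT (fun a => Option.some (f a)) :=
  (DPT.ofPT (PT.some hf.rawPT)).of_enc fun _ => rfl

theorem DPT.optPT {o : ∀ a, Option (β a)} (ho : DPT o) : PT ∅ (fun a => (o a).map raw) :=
  (ho.of_enc (g := fun a => (o a).map raw) fun a => by cases o a <;> rfl).toPT

@[fun_prop]
theorem DPT.optGetD {o : ∀ a, Option (β a)} {d : ∀ a, β a} (ho : DPT o) (hd : DPT d) :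
    DPT (fun a => (o a).getD (d a)) :=
  DPT.of_rawPT (PT.optGetD ho.optPT hd.rawPT) fun a => by cases o a <;> rfl

@[fun_prop]
theorem DPT.isSome {o : ∀ a, Option (β a)} (ho : DPT o) : DPT (fun a => (o a).isSome) :=
  (DPT.ofPT (PT.isSome ho.optPT)).congr fun a => by cases o a <;> rfl

@[fun_prop]
theorem DPT.head? {l : ∀ a, List (β a)} (hl : DPT l) : DPT (fun a => (l a).head?) :=
  (DPT.ofPT (PT.head? hl.listPT)).of_enc fun a => by cases l a <;> rfl

/-! ### Maps and filters; the context is extended by an element of the list -/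

@[fun_prop]
theorem DPT.map {l : ∀ a, List (γ a)} {f : ∀ a, γ a → β a} (hl : DPT l)
    (hf : DPT (fun p : Σ a, {x // x ∈ l a} => f p.1 p.2.1)) : DPT (fun a => (l a).map (f a)) := by
  obtain ⟨F, hF, hF'⟩ := hf.lift
  refine DPT.of_listPT (PT.map hl.listPT hF) fun a => ?_
  rw [List.map_map, List.map_map]
  exact List.map_congr_left fun x hx => hF' a x hx

@[fun_prop]
theorem DPT.filter {l : ∀ a, List (γ a)} {f : ∀ a, γ a → Bool} (hl : DPT l)
    (hf : DPT (fun p : Σ a, {x // x ∈ l a} => f p.1 p.2.1)) :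
    DPT (fun a => (l a).filter (f a)) := by
  obtain ⟨F, hF, hF'⟩ := hf.liftBool
  refine DPT.of_listPT (PT.filter hl.listPT hF) fun a => ?_
  rw [List.filter_map]
  congr 1
  exact List.filter_congr fun x hx => hF' a x hx

@[fun_prop]
theorem DPT.flatten {l : ∀ a, List (List (β a))} (hl : DPT l) : DPT (fun a => (l a).flatten) := by
  have h1 : PT ∅ (fun a => (l a).map (List.map raw)) := by
    refine (hl.of_enc (g := fun a => (l a).map (List.map raw)) fun a => ?_).toPT
    induction l a with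
    | nil => rfl
    | cons x t ih => rw [List.map_cons, enc_cons, enc_cons, ih, enc_map_raw]
  exact DPT.of_listPT (PT.flatten h1) fun _ => by rw [List.map_flatten]

@[fun_prop]
theorem DPT.flatMap {l : ∀ a, List (γ a)} {f : ∀ a, γ a → List (β a)} (hl : DPT l)
    (hf : DPT (fun p : Σ a, {x // x ∈ l a} => f p.1 p.2.1)) :
    DPT (fun a => (l a).flatMap (f a)) :=
  (DPT.map hl hf).flatten.congr fun a => by rw [List.flatMap_def]

@[fun_prop]
theorem DPT.all {l : ∀ a, List (γ a)} {f : ∀ a, γ a → Bool} (hl : DPT l)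
    (hf : DPT (fun p : Σ a, {x // x ∈ l a} => f p.1 p.2.1)) : DPT (fun a => (l a).all (f a)) := by
  have h1 : PT ∅ (fun a => ((l a).map (f a)).all (fun b => b)) :=
    PT.all (f := fun _ b => b) (DPT.map hl hf).toPT PT.snd'
  exact (DPT.ofPT h1).congr fun a => by rw [List.all_map]; rfl

@[fun_prop]
theorem DPT.any {l : ∀ a, List (γ a)} {f : ∀ a, γ a → Bool} (hl : DPT l)
    (hf : DPT (fun p : Σ a, {x // x ∈ l a} => f p.1 p.2.1)) : DPT (fun a => (l a).any (f a)) := by
  have h1 : PT ∅ (fun a => ((l a).map (f a)).any (fun b => b)) :=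
    PT.any (f := fun _ b => b) (DPT.map hl hf).toPT PT.snd'
  exact (DPT.ofPT h1).congr fun a => by rw [List.any_map]; rfl

@[fun_prop]
theorem DPT.find? {l : ∀ a, List (γ a)} {f : ∀ a, γ a → Bool} (hl : DPT l)
    (hf : DPT (fun p : Σ a, {x // x ∈ l a} => f p.1 p.2.1)) :
    DPT (fun a => (l a).find? (f a)) :=
  (DPT.filter hl hf).head?.congr fun _ => List.head?_filter

@[fun_prop]
theorem DPT.zipWith {l : ∀ a, List (γ a)} {m : ∀ a, List (δ a)} {f : ∀ a, γ a → δ a → β a}
    (hl : DPT l) (hm : DPT m) (hf : DPT (fun p : Σ a, γ a × δ a => f p.1 p.2.1 p.2.2)) :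
    DPT (fun a => List.zipWith (f a) (l a) (m a)) := by
  have h1 : DPT (fun a => ((l a).zip (m a)).map (fun q => f a q.1 q.2)) :=
    DPT.map (hl.zip hm) (DPT.comp (f := fun p : Σ a, {x // x ∈ (l a).zip (m a)} =>
      (⟨p.1, p.2.1⟩ : Σ a, γ a × δ a)) hf (DPT.smk DPT.id.sfst DPT.ssnd.val))
  exact h1.congr fun a => by rw [List.zip_eq_zipWith, List.map_zipWith]

@[fun_prop]
theorem DPr.mem [∀ a, EncInj (β a)] {l : ∀ a, List (β a)} {f : ∀ a, β a} (hl : DPT l)
    (hf : DPT f) : DPr (fun a => f a ∈ l a) := by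
  classical
  have h1 : DPT (fun a => (l a).any (fun x => decide (x = f a))) :=
    DPT.any hl (DPT.decide (DPr.eq DPT.ssnd.val (hf.comp DPT.id.sfst)))
  exact DPr.of_decide (h1.congr fun a => by rw [Bool.eq_iff_iff]; simp)

/-! ### Loops -/

theorem DPT.foldl {l : ∀ a, List (γ a)} {s : ∀ a, β a} {f : ∀ a, β a → γ a → β a} (hl : DPT l)
    (hs : DPT s) (hf : DPT (fun p : Σ a, β a × {x // x ∈ l a} => f p.1 p.2.1 p.2.2.1))
    {b : α → ℕ} (hb : PBd b)
    (h : ∀ a i, PolyTime.esize (((l a).take i).foldl (f a) (s a)) ≤ b a) :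
    DPT (fun a => (l a).foldl (f a) (s a)) := by
  obtain ⟨G, hG, hG'⟩ := hf
  let F : α → Raw → Raw → Raw := fun a u w => ⟨G (pr (enc a) (pr u.w w.w))⟩
  have hF : PT ∅ (fun p : α × Raw × Raw => F p.1 p.2.1 p.2.2) := ⟨G, hG, fun _ => rfl⟩
  have key : ∀ a (t : List (γ a)) (u : β a), (∀ x ∈ t, x ∈ l a) →
      (t.map raw).foldl (F a) (raw u) = raw (t.foldl (f a) u) := by
    intro a t
    induction t with
    | nil => intro u _; rfl
    | cons x t ih =>
      intro u ht
      have h1 : F a (raw u) (raw x) = raw (f a u x) :=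
        congrArg Raw.mk (hG' ⟨a, u, x, ht x List.mem_cons_self⟩)
      rw [List.map_cons, List.foldl_cons, List.foldl_cons, h1]
      exact ih _ fun y hy => ht y (List.mem_cons_of_mem _ hy)
  refine DPT.of_rawPT (PT.foldl hl.listPT hs.rawPT hF hb fun a i => ?_) fun a =>
    key a _ _ fun _ hx => hx
  rw [← List.map_take, key a _ _ fun _ hx => List.mem_of_mem_take hx]
  exact h a i

theorem foldl_range_eq_iterate {κ : Type} (f : κ → κ) (s : κ) (k : ℕ) :
    (List.range k).foldl (fun u _ => f u) s = f^[k] s := by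
  induction k with
  | zero => rfl
  | succ k ih => rw [List.range_succ, List.foldl_append, ih, Function.iterate_succ_apply']; rfl

theorem DPT.iterate {k : α → ℕ} {s : ∀ a, β a} {f : ∀ a, β a → β a} (hk : DPT k) (hkb : PBd k)
    (hs : DPT s) (hf : DPT (fun p : Σ a, β a => f p.1 p.2)) {b : α → ℕ} (hb : PBd b)
    (h : ∀ a, ∀ j ≤ k a, PolyTime.esize ((f a)^[j] (s a)) ≤ b a) :
    DPT (fun a => (f a)^[k a] (s a)) := by
  refine (DPT.foldl (f := fun a u _ => f a u) (hk.range hkb) hs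
    (DPT.comp (f := fun p : Σ a, β a × {x // x ∈ List.range (k a)} => (⟨p.1, p.2.1⟩ : Σ a, β a))
      hf (DPT.smk DPT.id.sfst DPT.ssnd.fst)) hb fun a i => ?_).congr fun a =>
    foldl_range_eq_iterate _ _ _
  rw [List.take_range, foldl_range_eq_iterate]
  exact h a _ (min_le_right _ _)

/-- folds whose state is a Boolean value -/
@[fun_prop]
theorem DPT.foldl_bool {l : ∀ a, List (γ a)} {s : α → Bool} {f : ∀ a, Bool → γ a → Bool}
    (hl : DPT l) (hs : DPT s)
    (hf : DPT (fun p : Σ a, Bool × {x // x ∈ l a} => f p.1 p.2.1 p.2.2.1)) :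
    DPT (fun a => (l a).foldl (f a) (s a)) :=
  DPT.foldl (β := fun _ => Bool) hl hs hf (PBd.const 1) fun _ _ => le_rfl

/-! ### Bounded quantifiers and small number theory -/

theorem DPr.forall_mem {l : ∀ a, List (γ a)} {q : ∀ a, γ a → Prop} (hl : DPT l)
    (hq : DPr (fun p : Σ a, {x // x ∈ l a} => q p.1 p.2.1)) : DPr (fun a => ∀ x ∈ l a, q a x) := by
  classical
  have h1 : DPT (fun a => (l a).all (fun x => decide (q a x))) := DPT.all hl (DPT.decide hq)
  exact DPr.of_decide (h1.congr fun a => by rw [Bool.eq_iff_iff]; simp)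

theorem DPr.exists_mem {l : ∀ a, List (γ a)} {q : ∀ a, γ a → Prop} (hl : DPT l)
    (hq : DPr (fun p : Σ a, {x // x ∈ l a} => q p.1 p.2.1)) : DPr (fun a => ∃ x ∈ l a, q a x) := by
  classical
  have h1 : DPT (fun a => (l a).any (fun x => decide (q a x))) := DPT.any hl (DPT.decide hq)
  exact DPr.of_decide (h1.congr fun a => by rw [Bool.eq_iff_iff]; simp)

/-- primality of numbers given in unary -/
@[fun_prop]
theorem DPr.prime {f : α → ℕ} (hf : DPT f) (hb : PBd f) : DPr (fun a => (f a).Prime) := by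
  have h1 : DPr (fun a => 2 ≤ f a ∧ ∀ m ∈ List.range (f a), ¬ (2 ≤ m ∧ m ∣ f a)) :=
    DPr.and (by fun_prop) (DPr.forall_mem (hf.range hb) (by fun_prop))
  refine h1.congr fun a => ?_
  rw [Nat.prime_def_lt']
  simp only [List.mem_range, not_and]
  exact and_congr Iff.rfl ⟨fun h m h2 hm => h m hm h2, fun h m hm h2 => h m h2 hm⟩

/-- least prime factor of numbers given in unary -/
@[fun_prop]
theorem DPT.minFac {f : α → ℕ} (hf : DPT f) (hb : PBd f) : DPT (fun a => (f a).minFac) := by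
  have h1 : DPT (fun a => ((List.range (f a + 3)).find?
      (fun m => Decidable.decide (2 ≤ m ∧ m ∣ f a))).getD 1) := by fun_prop
  refine h1.congr fun a => ?_
  generalize f a = n
  by_cases hn : n = 1
  · subst hn; rw [Nat.minFac_one]; decide
  have hp := Nat.minFac_prime hn
  have hle : n.minFac < n + 3 := by
    rcases Nat.eq_zero_or_pos n with h | h
    · rw [h]; simp
    · have := Nat.minFac_le h; omega
  have : (List.range (n + 3)).find? (fun m => Decidable.decide (2 ≤ m ∧ m ∣ n)) =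
      Option.some n.minFac := by
    rw [List.find?_range_eq_some]
    refine ⟨by simp [hp.two_le, Nat.minFac_dvd], List.mem_range.2 hle, fun j hj => ?_⟩
    simp only [Bool.not_eq_eq_eq_not, Bool.not_true, decide_eq_false_iff_not, not_and]
    intro h2 hd
    exact absurd (Nat.minFac_le_of_dvd h2 hd) (by omega)
  rw [this]
  rfl

end Vale.Agent.Lib.Dep
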