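import Vale.Agent.Lib.Dep.Ring
import Mathlib.Algebra.Polynomial.FieldDivision
import Mathlib.Algebra.Polynomial.EraseLead
import Mathlib.Algebra.Polynomial.Derivative

/-!
Polynomials over a family of rings computable in polynomial time.
-/

set_option linter.unusedSectionVars false

namespace Vale.Agent.Lib.Dep

open Vale.Agent.Lib.PolyTime hiding C P
open Polynomial

/-- the dense list of coefficients, constant term first -/
noncomputable def toL {R : Type} [Semiring R] (p : R[X]) : List R :=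
  (List.range (p.natDegree + 1)).map p.coeff

section ToL

variable {R : Type} [Semiring R]

theorem length_toL (p : R[X]) : (toL p).length = p.natDegree + 1 := by simp [toL]

theorem getD_toL (p : R[X]) (i : ℕ) : (toL p).getD i 0 = p.coeff i := by
  by_cases h : i < p.natDegree + 1
  · rw [List.getD_eq_getElem _ _ (by rw [length_toL]; exact h)]
    simp [toL]
  · rw [List.getD_eq_default _ _ (by rw [length_toL]; omega), coeff_eq_zero_of_natDegree_lt]
    omega

theorem toL_injective : Function.Injective (toL : R[X] → List R) := fun p q h => by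
  ext i
  rw [← getD_toL, ← getD_toL, h]

theorem mem_toL {p : R[X]} {x : R} : x ∈ toL p ↔ ∃ i ≤ p.natDegree, p.coeff i = x := by
  simp [toL]

end ToL

section PolyHt

variable {R : Type} [CommRing R] [Code R]

/-- height of a polynomial -/
noncomputable def polyHt (p : R[X]) : ℕ := max p.natDegree (p.support.sup fun i => ht (p.coeff i))

theorem polyHt_le {p : R[X]} {B : ℕ} :
    polyHt p ≤ B ↔ p.natDegree ≤ B ∧ ∀ i, ht (p.coeff i) ≤ B := by
  rw [polyHt, max_le_iff, Finset.sup_le_iff]
  refine and_congr Iff.rfl ⟨fun h i => ?_, fun h i _ => h i⟩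
  by_cases hi : i ∈ p.support
  · exact h i hi
  · rw [notMem_support_iff.1 hi]; simp

noncomputable instance instCodePoly : Code R[X] where
  enc p := enc (toL p)
  ht := polyHt
  enc_inj := fun _ _ h => toL_injective (EncInj.inj (α := List R) h)
  ht_zero := Nat.le_zero.1 (polyHt_le.2 ⟨by simp, fun i => by simp⟩)
  ht_one := Nat.le_zero.1 (polyHt_le.2 ⟨by simp, fun i => by
    rw [coeff_one]; split_ifs <;> simp⟩)
  ht_add_le p q := by
    obtain ⟨h1, h2⟩ := polyHt_le.1 (le_refl (polyHt p))
    obtain ⟨h3, h4⟩ := polyHt_le.1 (le_refl (polyHt q))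
    exact polyHt_le.2 ⟨(natDegree_add_le p q).trans (max_le_max h1 h3), fun i => by
      rw [coeff_add]; exact (ht_add_le _ _).trans (max_le_max (h2 i) (h4 i))⟩
  ht_neg_le p := by
    obtain ⟨h1, h2⟩ := polyHt_le.1 (le_refl (polyHt p))
    exact polyHt_le.2 ⟨by simpa using h1, fun i => by simpa using h2 i⟩
  ht_mul_le p q := by
    obtain ⟨h1, h2⟩ := polyHt_le.1 (le_refl (polyHt p))
    obtain ⟨h3, h4⟩ := polyHt_le.1 (le_refl (polyHt q))
    refine polyHt_le.2 ⟨natDegree_mul_le.trans (add_le_add h1 h3), fun i => ?_⟩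
    rw [coeff_mul]
    exact ht_sum_le fun c _ => ht_mul_le_of (h2 _) (h4 _)

theorem enc_poly (p : R[X]) : enc p = enc (toL p) := rfl

theorem ht_poly_le {p : R[X]} {B : ℕ} :
    ht p ≤ B ↔ p.natDegree ≤ B ∧ ∀ i, ht (p.coeff i) ≤ B := polyHt_le

theorem natDegree_le_ht (p : R[X]) : p.natDegree ≤ ht p := (ht_poly_le.1 le_rfl).1

theorem ht_coeff_le (p : R[X]) (i : ℕ) : ht (p.coeff i) ≤ ht p := (ht_poly_le.1 le_rfl).2 i

theorem ht_leadingCoeff_le (p : R[X]) : ht p.leadingCoeff ≤ ht p := ht_coeff_le p _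

theorem ht_poly_eq [HtZero R] (p : R[X]) : ht p = p.natDegree :=
  le_antisymm (ht_poly_le.2 ⟨le_rfl, fun _ => by rw [ht_eq_zero]; exact Nat.zero_le _⟩)
    (natDegree_le_ht p)

theorem ht_monomial_le (n : ℕ) (c : R) : ht (monomial n c) ≤ max n (ht c) :=
  ht_poly_le.2 ⟨(natDegree_monomial_le c).trans (le_max_left _ _), fun i => by
    rw [coeff_monomial]; split_ifs <;> simp⟩

@[simp] theorem ht_C (c : R) : ht (C c) = ht c :=
  le_antisymm (by simpa using ht_monomial_le 0 c) (by simpa using ht_coeff_le (C c) 0)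

theorem ht_X_pow_le (n : ℕ) : ht (X ^ n : R[X]) ≤ n := by
  simpa [X_pow_eq_monomial] using ht_monomial_le n (1 : R)

theorem ht_X_le : ht (X : R[X]) ≤ 1 := by simpa using ht_X_pow_le (R := R) 1

theorem ht_toL_le (p : R[X]) : ht (toL p) ≤ ht p + 1 :=
  ht_map_le (by simpa using natDegree_le_ht p) fun i _ => (ht_coeff_le p i).trans (Nat.le_succ _)

theorem ht_derivative_le (p : R[X]) : ht (derivative p) ≤ ht p :=
  ht_poly_le.2 ⟨(natDegree_derivative_le p).trans ((Nat.sub_le _ _).trans (natDegree_le_ht p)),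
    fun i => by
      rw [coeff_derivative, ← Nat.cast_succ]
      simpa using ht_mul_le_of (ht_coeff_le p (i + 1)) (ht_natCast (R := R) (i + 1)).le⟩

theorem ht_eval₂_le {T : Type} [CommRing T] [Code T] {φ : R →+* T} {B : ℕ} (x : T) (p : R[X])
    (h : ∀ i, ht (φ (p.coeff i)) ≤ B) : ht (p.eval₂ φ x) ≤ B + p.natDegree * ht x := by
  rw [eval₂_eq_sum_range]
  refine ht_sum_le fun i hi => ht_mul_le_of (h i) ((ht_pow_le _ _).trans ?_)
  exact Nat.mul_le_mul_right _ (Nat.lt_succ_iff.1 (Finset.mem_range.1 hi))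

theorem ht_eval_le (x : R) (p : R[X]) : ht (p.eval x) ≤ ht p + ht p * ht x :=
  (ht_eval₂_le (φ := RingHom.id R) x p (ht_coeff_le p)).trans
    (Nat.add_le_add_left (Nat.mul_le_mul_right _ (natDegree_le_ht p)) _)

theorem ht_comp_le (p q : R[X]) : ht (p.comp q) ≤ ht p + ht p * ht q :=
  (ht_eval₂_le (φ := C) q p fun i => by simpa using ht_coeff_le p i).trans
    (Nat.add_le_add_left (Nat.mul_le_mul_right _ (natDegree_le_ht p)) _)

theorem ht_map_poly_le {T : Type} [CommRing T] [Code T] {φ : R →+* T} {B : ℕ} (p : R[X])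
    (h0 : p.natDegree ≤ B) (h : ∀ i, ht (φ (p.coeff i)) ≤ B) : ht (p.map φ) ≤ B :=
  ht_poly_le.2 ⟨natDegree_map_le.trans h0, fun i => by rw [coeff_map]; exact h i⟩

end PolyHt

/-! ### Division by monic polynomials as a loop -/

section Div

variable {R : Type} [CommRing R]

open Classical in
/-- one round of division with remainder, on (quotient, remainder) -/
noncomputable def divStep (g : R[X]) (s : R[X] × R[X]) : R[X] × R[X] :=
  if g.natDegree ≤ s.2.natDegree ∧ s.2 ≠ 0 then
    (s.1 + monomial (s.2.natDegree - g.natDegree) s.2.leadingCoeff,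
      s.2 - monomial (s.2.natDegree - g.natDegree) s.2.leadingCoeff * g)
  else s

theorem divStep_iterate {g : R[X]} (hg : g.Monic) (f : R[X]) :
    (divStep g)^[f.natDegree + 1] (0, f) = (f /ₘ g, f %ₘ g) := by
  nontriviality R
  have key : ∀ j, ((divStep g)^[j] (0, f)).2 + g * ((divStep g)^[j] (0, f)).1 = f ∧
      (((divStep g)^[j] (0, f)).2.degree < g.degree ∨
        ((divStep g)^[j] (0, f)).2.natDegree + j ≤ f.natDegree) := by
    intro j
    induction j with
    | zero => simp
    | succ j ih =>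
      rw [Function.iterate_succ_apply']
      obtain ⟨q, r, e⟩ : ∃ q r, (divStep g)^[j] (0, f) = (q, r) := ⟨_, _, rfl⟩
      rw [e] at ih ⊢
      obtain ⟨h1, h2⟩ := ih
      simp only at h1 h2
      unfold divStep
      split_ifs with h
      · obtain ⟨h3, h4⟩ := h
        simp only at h3 h4 ⊢
        refine ⟨by rw [← h1]; ring, ?_⟩
        have hlc : r.leadingCoeff ≠ 0 := leadingCoeff_ne_zero.2 h4
        have h5 : (r - monomial (r.natDegree - g.natDegree) r.leadingCoeff * g).degree <
            r.degree := by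
          refine degree_sub_lt_left ?_ h4 ?_
          · rw [hg.degree_mul, degree_monomial _ hlc, degree_eq_natDegree h4,
              degree_eq_natDegree hg.ne_zero, ← Nat.cast_add, Nat.sub_add_cancel h3]
          · rw [leadingCoeff_mul_monic hg, leadingCoeff_monomial]
        rcases h2 with h2 | h2
        · exact Or.inl (h5.trans h2)
        · by_cases h6 : r - monomial (r.natDegree - g.natDegree) r.leadingCoeff * g = 0
          · left
            rw [h6, degree_zero]
            exact bot_lt_iff_ne_bot.2 (degree_ne_bot.2 hg.ne_zero)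
          · right
            have := natDegree_lt_natDegree h6 h5
            omega
      · refine ⟨h1, Or.inl ?_⟩
        simp only [not_and_or, not_le, ne_eq, not_not] at h ⊢
        rcases h with h | h
        · exact degree_lt_degree h
        · rw [h, degree_zero]
          exact bot_lt_iff_ne_bot.2 (degree_ne_bot.2 hg.ne_zero)
  obtain ⟨h1, h2⟩ := key (f.natDegree + 1)
  obtain ⟨h3, h4⟩ := div_modByMonic_unique _ _ hg ⟨h1, h2.resolve_right (by omega)⟩
  rw [h3, h4]

variable [Code R]

theorem ht_divStep_le (g : R[X]) (s : R[X] × R[X]) : ht (divStep g s) ≤ ht s + ht g := by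
  unfold divStep
  split_ifs with h
  · have h1 : ht (monomial (s.2.natDegree - g.natDegree) s.2.leadingCoeff) ≤ ht s :=
      (ht_monomial_le _ _).trans ((max_le ((Nat.sub_le _ _).trans (natDegree_le_ht _))
        (ht_leadingCoeff_le _)).trans (ht_snd_le s))
    exact ht_pair_le.2 ⟨(ht_add_le_of (ht_fst_le s) h1).trans (Nat.le_add_right _ _),
      ht_sub_le_of ((ht_snd_le s).trans (Nat.le_add_right _ _)) (ht_mul_le_of h1 le_rfl)⟩
  · exact Nat.le_add_right _ _

theorem ht_divMod_le (f g : R[X]) : ht (f /ₘ g, f %ₘ g) ≤ ht f + (ht f + 1) * ht g := by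
  by_cases hg : g.Monic
  · rw [← divStep_iterate hg]
    refine (ht_iterate_le_add (ht_divStep_le g) _).trans (add_le_add ?_ ?_)
    · exact ht_pair_le.2 ⟨by simp, le_rfl⟩
    · exact Nat.mul_le_mul_right _ (Nat.succ_le_succ (natDegree_le_ht f))
  · rw [divByMonic_eq_of_not_monic _ hg, modByMonic_eq_of_not_monic _ hg]
    exact ht_pair_le.2 ⟨by simp, Nat.le_add_right _ _⟩

theorem ht_divByMonic_le (f g : R[X]) : ht (f /ₘ g) ≤ ht f + (ht f + 1) * ht g :=
  (ht_pair_le.1 (ht_divMod_le f g)).1

theorem ht_modByMonic_le (f g : R[X]) : ht (f %ₘ g) ≤ ht f + (ht f + 1) * ht g :=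
  (ht_pair_le.1 (ht_divMod_le f g)).2

theorem ht_modByMonic_le' [HtZero R] (f g : R[X]) : ht (f %ₘ g) ≤ ht f := by
  rw [ht_poly_eq, ht_poly_eq]; exact natDegree_modByMonic_le_left

theorem ht_divByMonic_le' [HtZero R] (f g : R[X]) : ht (f /ₘ g) ≤ ht f := by
  rw [ht_poly_eq, ht_poly_eq]; exact natDegree_le_natDegree (degree_divByMonic_le f g)

end Div

variable {α : Type} [Enc α] {S T : α → Type} [∀ a, CommRing (S a)] [∀ a, Code (S a)]
  [∀ a, CommRing (T a)] [∀ a, Code (T a)]

/-! ### Access to the coefficients -/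

@[fun_prop]
theorem DPT.toL {f : ∀ a, (S a)[X]} (hf : DPT f) : DPT (fun a => toL (f a)) := hf

@[fun_prop]
theorem DPT.natDegree {f : ∀ a, (S a)[X]} (hf : DPT f) : DPT (fun a => (f a).natDegree) :=
  (DPT.natSub hf.toL.length (DPT.const 1)).congr fun a => by rw [length_toL]; rfl

@[fun_prop]
theorem pbd_natDegree {f : ∀ a, (S a)[X]} (hf : DPT f) : PBd (fun a => (f a).natDegree) :=
  (pbd_length hf.toL).mono fun a => by rw [length_toL]; exact Nat.le_succ _

@[fun_prop]
theorem DPT.coeff {f : ∀ a, (S a)[X]} {n : α → ℕ} (hS : PTRing S) (hf : DPT f) (hn : DPT n) :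
    DPT (fun a => (f a).coeff (n a)) :=
  (DPT.getD hf.toL hn hS.zero).congr fun _ => getD_toL _ _

@[fun_prop]
theorem DPT.leadingCoeff {f : ∀ a, (S a)[X]} (hS : PTRing S) (hf : DPT f) :
    DPT (fun a => (f a).leadingCoeff) := DPT.coeff hS hf hf.natDegree

@[fun_prop]
theorem DPr.monic {f : ∀ a, (S a)[X]} (hS : PTRing S) (hf : DPT f) : DPr (fun a => (f a).Monic) :=
  DPr.eq (DPT.leadingCoeff hS hf) hS.one

open Classical in
theorem foldl_natDegree {R : Type} [Semiring R] (p : R[X]) (n : ℕ) (h : p.natDegree ≤ n) :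
    (List.range (n + 1)).foldl (fun d i => if p.coeff i = 0 then d else i) 0 = p.natDegree := by
  induction n, h using Nat.le_induction with
  | base =>
    rw [List.range_succ, List.foldl_append, List.foldl_cons, List.foldl_nil]
    split_ifs with h0
    · have : p = 0 := leadingCoeff_eq_zero.1 h0
      subst this
      simp
    · rfl
  | succ n hn ih =>
    rw [List.range_succ, List.foldl_append, List.foldl_cons, List.foldl_nil, ih,
      if_pos (coeff_eq_zero_of_natDegree_lt (by omega))]

/-- A polynomial of bounded degree whose coefficients can be computed can be computed. -/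
theorem DPT.poly_of_coeff {f : ∀ a, (S a)[X]} {n : α → ℕ} (hS : PTRing S) (hn : DPT n)
    (hb : PBd n) (hc : DPT (fun p : Σ a, {i // i ∈ List.range (n a + 1)} => (f p.1).coeff p.2.1))
    (hd : ∀ a, (f a).natDegree ≤ n a) : DPT f := by
  classical
  have hL : DPT (fun a => (List.range (n a + 1)).map (f a).coeff) := DPT.map (by fun_prop) hc
  have h1 : DPT (fun a => (List.range (n a + 1)).foldl
      (fun d i => if (f a).coeff i = 0 then d else i) 0) := by
    refine DPT.foldl (β := fun _ => ℕ) (by fun_prop) (DPT.const 0) (DPT.ite (DPr.eq ?_ ?_) ?_ ?_)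
      (b := fun a => n a + 1) (by fun_prop) fun a i => ?_
    · exact DPT.comp (f := fun p : Σ a, ℕ × {i // i ∈ List.range (n a + 1)} =>
        (⟨p.1, p.2.2⟩ : Σ a, {i // i ∈ List.range (n a + 1)})) hc (by fun_prop)
    · fun_prop
    · fun_prop
    · fun_prop
    · refine (esize_nat_le_self _).trans ?_
      refine List.foldlRecOn (motive := fun d => d ≤ n a + 1) _ _ (Nat.zero_le _) fun d hd j hj => ?_
      split_ifs
      · exact hd
      · exact (List.mem_range.1 (List.mem_of_mem_take hj)).le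
  have h2 : DPT (fun a => (f a).natDegree) := h1.congr fun a => foldl_natDegree _ _ (hd a)
  refine (DPT.take hL (DPT.natAdd h2 (DPT.const 1))).of_enc fun a => ?_
  rw [enc_poly, Dep.toL, ← List.map_take, List.take_range, min_eq_left (Nat.succ_le_succ (hd a))]

@[fun_prop]
theorem ptsz_poly (hS : PTRing S) : PTSz (fun a => (S a)[X]) := by
  obtain ⟨d, hd⟩ := hS.sz.list.size_le
  refine PTSz.mk' (T := fun n => pb d (n + 1)) ((PB.pb d).comp (PB.id.add (PB.const 1)))
    (fun a p => (hd a (Dep.toL p)).trans (pb_mono d ?_)) fun a p => ?_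
  · have := ht_toL_le p
    omega
  · refine le_trans (ht_poly_le.2 ⟨?_, fun i => ?_⟩) (hS.sz.list.ht_le a (Dep.toL p))
    · exact le_trans (by rw [length_toL]; exact Nat.le_succ _) (length_le_ht _)
    · rw [← getD_toL]
      simpa using ht_getD_le (Dep.toL p) i 0

@[fun_prop]
theorem DPT.monomial {c : ∀ a, S a} {n : α → ℕ} (hS : PTRing S) (hn : DPT n) (hb : PBd n)
    (hc : DPT c) : DPT (fun a => monomial (n a) (c a)) := by
  classical
  refine DPT.poly_of_coeff hS hn hb ?_ fun a => natDegree_monomial_le _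
  simp only [coeff_monomial]
  fun_prop

@[fun_prop]
theorem DPT.C {c : ∀ a, S a} (hS : PTRing S) (hc : DPT c) : DPT (fun a => C (c a)) :=
  DPT.monomial hS (DPT.const 0) (PBd.const 0) hc

@[fun_prop]
theorem DPT.X (hS : PTRing S) : DPT (fun a => (X : (S a)[X])) :=
  DPT.monomial hS (DPT.const 1) (PBd.const 1) hS.one

@[fun_prop]
theorem PTRing.poly (hS : PTRing S) : PTRing (fun a => (S a)[X]) where
  zero := (DPT.C hS hS.zero).congr fun _ => map_zero _
  one := (DPT.C hS hS.one).congr fun _ => map_one _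
  add := by
    refine DPT.poly_of_coeff (S := fun p : Σ a, (S a)[X] × (S a)[X] => S p.1)
      (n := fun p => max p.2.1.natDegree p.2.2.natDegree) (by fun_prop) (by fun_prop) (by fun_prop)
      ?_ fun _ => natDegree_add_le _ _
    simp only [coeff_add]
    fun_prop
  mul := by
    refine DPT.poly_of_coeff (S := fun p : Σ a, (S a)[X] × (S a)[X] => S p.1)
      (n := fun p => p.2.1.natDegree + p.2.2.natDegree) (by fun_prop) (by fun_prop) (by fun_prop)
      ?_ fun _ => natDegree_mul_le
    simp only [coeff_mul, Finset.Nat.sum_antidiagonal_eq_sum_range_succ_mk]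
    fun_prop
  neg := by
    refine DPT.poly_of_coeff (S := fun p : Σ a, (S a)[X] => S p.1)
      (n := fun p => p.2.natDegree) (by fun_prop) (by fun_prop) (by fun_prop)
      ?_ fun _ => (natDegree_neg _).le
    simp only [coeff_neg]
    fun_prop
  sz := ptsz_poly hS

@[fun_prop]
theorem DPT.derivative {f : ∀ a, (S a)[X]} (hS : PTRing S) (hf : DPT f) :
    DPT (fun a => derivative (f a)) := by
  refine DPT.poly_of_coeff hS hf.natDegree (pbd_natDegree hf) ?_ fun _ =>
    (natDegree_derivative_le _).trans (Nat.sub_le _ _)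
  simp only [coeff_derivative]
  fun_prop

@[fun_prop]
theorem DPT.polyMap {φ : ∀ a, S a →+* T a} {f : ∀ a, (S a)[X]} (hS : PTRing S) (hT : PTRing T)
    (hφ : DPT (fun p : Σ a, S a => φ p.1 p.2)) (hf : DPT f) : DPT (fun a => (f a).map (φ a)) := by
  refine DPT.poly_of_coeff hT hf.natDegree (pbd_natDegree hf) ?_ fun _ => natDegree_map_le
  simp only [coeff_map]
  exact DPT.comp (f := fun p : Σ a, {i // i ∈ List.range ((f a).natDegree + 1)} =>
    (⟨p.1, (f p.1).coeff p.2.1⟩ : Σ a, S a)) hφ (by fun_prop)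

@[fun_prop]
theorem DPT.eval₂ {φ : ∀ a, S a →+* T a} {f : ∀ a, (S a)[X]} {x : ∀ a, T a} (hS : PTRing S)
    (hT : PTRing T) (hφ : DPT (fun p : Σ a, S a => φ p.1 p.2)) (hx : DPT x) (hf : DPT f) :
    DPT (fun a => (f a).eval₂ (φ a) (x a)) := by
  simp only [eval₂_eq_sum_range]
  refine DPT.sum_range hT (by fun_prop) (by fun_prop) (DPT.mul (by fun_prop) ?_ (by fun_prop))
  exact DPT.comp (f := fun p : Σ a, {i // i ∈ List.range ((f a).natDegree + 1)} =>
    (⟨p.1, (f p.1).coeff p.2.1⟩ : Σ a, S a)) hφ (by fun_prop)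

@[fun_prop]
theorem DPT.eval {f : ∀ a, (S a)[X]} {x : ∀ a, S a} (hS : PTRing S) (hx : DPT x) (hf : DPT f) :
    DPT (fun a => (f a).eval (x a)) :=
  DPT.eval₂ (φ := fun a => RingHom.id (S a)) hS hS DPT.ssnd hx hf

@[fun_prop]
theorem DPT.polyComp {f g : ∀ a, (S a)[X]} (hS : PTRing S) (hf : DPT f) (hg : DPT g) :
    DPT (fun a => (f a).comp (g a)) :=
  DPT.eval₂ (φ := fun a => (Polynomial.C : S a →+* (S a)[X])) hS hS.poly (by fun_prop) hg hf

@[fun_prop]
theorem DPT.aeval [∀ a, Algebra (S a) (T a)] {f : ∀ a, (S a)[X]} {x : ∀ a, T a} (hS : PTRing S)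
    (hT : PTRing T) (hφ : DPT (fun p : Σ a, S a => algebraMap (S p.1) (T p.1) p.2)) (hx : DPT x)
    (hf : DPT f) : DPT (fun a => aeval (x a) (f a)) :=
  DPT.eval₂ (φ := fun a => algebraMap (S a) (T a)) hS hT hφ hx hf

@[fun_prop]
theorem DPT.algebraMap_self {f : ∀ a, S a} (hf : DPT f) :
    DPT (fun a => algebraMap (S a) (S a) (f a)) := hf

@[fun_prop]
theorem DPT.algebraMap_poly [∀ a, Algebra (S a) (T a)] {f : ∀ a, S a} (hT : PTRing T)
    (hf : DPT (fun a => algebraMap (S a) (T a) (f a))) :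
    DPT (fun a => algebraMap (S a) (T a)[X] (f a)) := DPT.C hT hf

@[fun_prop]
theorem DPT.smul_poly [∀ a, SMulZeroClass (S a) (T a)] {c : ∀ a, S a} {f : ∀ a, (T a)[X]}
    (hT : PTRing T) (h : DPT (fun p : Σ a, S a × T a => p.2.1 • p.2.2)) (hc : DPT c) (hf : DPT f) :
    DPT (fun a => c a • f a) := by
  refine DPT.poly_of_coeff hT hf.natDegree (pbd_natDegree hf) ?_ fun _ => natDegree_smul_le _ _
  simp only [coeff_smul]
  exact DPT.comp (f := fun p : Σ a, {i // i ∈ List.range ((f a).natDegree + 1)} =>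
    (⟨p.1, c p.1, (f p.1).coeff p.2.1⟩ : Σ a, S a × T a)) h (by fun_prop)

theorem DPT.divMod {f g : ∀ a, (S a)[X]} (hS : PTRing S) (hf : DPT f) (hg : DPT g) :
    DPT (fun a => (f a /ₘ g a, f a %ₘ g a)) := by
  classical
  have h1 : DPT (fun a => (divStep (g a))^[(f a).natDegree + 1] (0, f a)) := by
    refine DPT.iterate_grow (β := fun a => (S a)[X] × (S a)[X]) (by fun_prop) (by fun_prop)
      (by fun_prop) (by fun_prop) ?_ (b := fun a => ht (g a)) (by fun_prop)
      fun a u => ht_divStep_le _ _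
    unfold divStep
    fun_prop
  have h2 : DPT (fun a => if (g a).Monic then (divStep (g a))^[(f a).natDegree + 1] (0, f a)
      else (0, f a)) := by fun_prop
  refine h2.congr fun a => ?_
  split_ifs with h
  · exact divStep_iterate h _
  · rw [divByMonic_eq_of_not_monic _ h, modByMonic_eq_of_not_monic _ h]

@[fun_prop]
theorem DPT.divByMonic {f g : ∀ a, (S a)[X]} (hS : PTRing S) (hf : DPT f) (hg : DPT g) :
    DPT (fun a => f a /ₘ g a) := (DPT.divMod hS hf hg).fst

@[fun_prop]
theorem DPT.modByMonic {f g : ∀ a, (S a)[X]} (hS : PTRing S) (hf : DPT f) (hg : DPT g) :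
    DPT (fun a => f a %ₘ g a) := (DPT.divMod hS hf hg).snd

end Vale.Agent.Lib.Dep
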