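import Vale.Agent.Lib.Dep.Lists
import Mathlib.Data.ZMod.Basic
import Mathlib.FieldTheory.Finite.Basic

/-!
Heights (a measure of the shape of a datum which bounds the length of its code), loops with height
bounds, and families of rings whose operations are computable in polynomial time.
-/

namespace Vale.Agent.Lib.Dep

open Vale.Agent.Lib.PolyTime hiding C P

/-- A numerical measure of the shape of data. -/
class Ht (κ : Type) where
  /-- the height -/
  ht : κ → ℕ

export Ht (ht)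

instance : Ht ℕ := ⟨Nat.size⟩
instance : Ht Bool := ⟨fun _ => 0⟩
instance : Ht Unit := ⟨fun _ => 0⟩
instance {κ μ : Type} [Ht κ] [Ht μ] : Ht (κ × μ) := ⟨fun p => max (ht p.1) (ht p.2)⟩
instance {κ : Type} [Ht κ] : Ht (List κ) := ⟨fun l => max l.length ((l.map ht).foldr max 0)⟩
instance {κ : Type} [Ht κ] : Ht (Option κ) := ⟨fun o => (o.map ht).getD 0⟩
instance {κ : Type} [Ht κ] {p : κ → Prop} : Ht (Subtype p) := ⟨fun x => ht x.1⟩

section HtLemmas

variable {κ μ : Type} [Ht κ] [Ht μ]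

theorem ht_nat (n : ℕ) : ht n = Nat.size n := rfl

theorem ht_nat_le (n : ℕ) : ht n ≤ n := Nat.size_le.2 Nat.lt_two_pow_self

theorem ht_nat_mono {m n : ℕ} (h : m ≤ n) : ht m ≤ ht n := Nat.size_le_size h

theorem ht_pair (x : κ) (y : μ) : ht (x, y) = max (ht x) (ht y) := rfl

theorem ht_prod_le {p : κ × μ} {B : ℕ} : ht p ≤ B ↔ ht p.1 ≤ B ∧ ht p.2 ≤ B := max_le_iff

theorem ht_pair_le {x : κ} {y : μ} {B : ℕ} : ht (x, y) ≤ B ↔ ht x ≤ B ∧ ht y ≤ B := max_le_iff

theorem ht_fst_le (p : κ × μ) : ht p.1 ≤ ht p := le_max_left _ _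

theorem ht_snd_le (p : κ × μ) : ht p.2 ≤ ht p := le_max_right _ _

theorem ht_val {p : κ → Prop} (x : Subtype p) : ht x = ht x.1 := rfl

theorem ht_some (x : κ) : ht (some x) = ht x := rfl

theorem ht_none : ht (none : Option κ) = 0 := rfl

theorem ht_list_le {l : List κ} {B : ℕ} : ht l ≤ B ↔ l.length ≤ B ∧ ∀ x ∈ l, ht x ≤ B := by
  have key : ∀ l : List κ, (l.map ht).foldr max 0 ≤ B ↔ ∀ x ∈ l, ht x ≤ B := by
    intro l
    induction l with
    | nil => simp
    | cons x l ih => simp [ih]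
  exact max_le_iff.trans (and_congr Iff.rfl (key l))

theorem length_le_ht (l : List κ) : l.length ≤ ht l := (ht_list_le.1 le_rfl).1

theorem ht_le_of_mem {l : List κ} {x : κ} (h : x ∈ l) : ht x ≤ ht l := (ht_list_le.1 le_rfl).2 x h

theorem ht_nil : ht ([] : List κ) = 0 := rfl

theorem ht_map_le {ι : Type} {l : List ι} {f : ι → κ} {B : ℕ} (h1 : l.length ≤ B)
    (h2 : ∀ x ∈ l, ht (f x) ≤ B) : ht (l.map f) ≤ B :=
  ht_list_le.2 ⟨by simpa using h1, by simpa using h2⟩

theorem ht_append_le (l m : List κ) : ht (l ++ m) ≤ ht l + ht m := by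
  refine ht_list_le.2 ⟨?_, fun x hx => ?_⟩
  · rw [List.length_append]; exact add_le_add (length_le_ht _) (length_le_ht _)
  · rcases List.mem_append.1 hx with h | h
    · exact (ht_le_of_mem h).trans (Nat.le_add_right _ _)
    · exact (ht_le_of_mem h).trans (Nat.le_add_left _ _)

theorem ht_le_of_sublist {l m : List κ} (h : l.Sublist m) : ht l ≤ ht m :=
  ht_list_le.2 ⟨h.length_le.trans (length_le_ht _), fun _ hx => ht_le_of_mem (h.subset hx)⟩

theorem ht_getD_le (l : List κ) (i : ℕ) (d : κ) : ht (l.getD i d) ≤ max (ht l) (ht d) := by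
  rw [List.getD_eq_getElem?_getD]
  rcases h : l[i]? with _ | x
  · exact le_max_right _ _
  · exact (ht_le_of_mem (List.mem_of_getElem? h)).trans (le_max_left _ _)

theorem ht_headD_le (l : List κ) (d : κ) : ht (l.headD d) ≤ max (ht l) (ht d) := by
  cases l with
  | nil => exact le_max_right _ _
  | cons x l => exact (ht_le_of_mem List.mem_cons_self).trans (le_max_left _ _)

end HtLemmas

/-- Types all of whose elements have height zero. -/
class HtZero (κ : Type) [Ht κ] : Prop where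
  ht_eq : ∀ x : κ, ht x = 0

theorem ht_eq_zero {κ : Type} [Ht κ] [HtZero κ] (x : κ) : ht x = 0 := HtZero.ht_eq x

instance : HtZero Bool := ⟨fun _ => rfl⟩
instance {κ μ : Type} [Ht κ] [Ht μ] [HtZero κ] [HtZero μ] : HtZero (κ × μ) :=
  ⟨fun p => by rw [ht_pair, ht_eq_zero, ht_eq_zero]; rfl⟩

variable {α : Type} [Enc α]

/-- The length of the code is polynomial in the context and the height. -/
@[fun_prop]
structure PTSz (β : α → Type) [∀ a, Enc (β a)] [∀ a, Ht (β a)] : Prop where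
  size_le : ∃ c, ∀ a (x : β a), esize x ≤ pb c (esize a + ht x)
  ht_le : ∀ a (x : β a), ht x ≤ esize x

section Sz

variable {β γ : α → Type} [∀ a, Enc (β a)] [∀ a, Ht (β a)] [∀ a, Enc (γ a)]

theorem PTSz.mk' {T : ℕ → ℕ} (hT : PB T) (h1 : ∀ a (x : β a), esize x ≤ T (esize a + ht x))
    (h2 : ∀ a (x : β a), ht x ≤ esize x) : PTSz β := by
  obtain ⟨c, hc⟩ := hT
  exact ⟨⟨c, fun a x => (h1 a x).trans (hc _)⟩, h2⟩

@[fun_prop]
theorem PTSz.comp {κ : Type} [Enc κ] {c : κ → α} (h : PTSz β) (hc : DPT c) :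
    PTSz (fun x => β (c x)) := by
  obtain ⟨d, hd⟩ := h.size_le
  obtain ⟨e, he⟩ := hc.pbd
  refine PTSz.mk' (T := fun n => pb d (pb e n + n)) ((PB.pb d).comp ((PB.pb e).add PB.id))
    (fun a x => (hd _ x).trans (pb_mono d ?_)) fun a x => h.ht_le _ x
  have h1 : esize (c a) ≤ pb e (esize a + ht x) := (he a).trans (pb_mono e (Nat.le_add_right _ _))
  omega

/-- Types of constant families. -/
class SzConst (κ : Type) [Enc κ] [Ht κ] : Prop where
  sz : PTSz (fun _ : Unit => κ)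

@[fun_prop]
theorem PTSz.const {κ : Type} [Enc κ] [Ht κ] [SzConst κ] : PTSz (fun _ : α => κ) :=
  PTSz.comp (c := fun _ : α => ()) SzConst.sz (DPT.const _)

@[fun_prop]
theorem PTSz.prod [∀ a, Ht (γ a)] (h1 : PTSz β) (h2 : PTSz γ) : PTSz (fun a => β a × γ a) := by
  obtain ⟨d, hd⟩ := h1.size_le
  obtain ⟨e, he⟩ := h2.size_le
  refine PTSz.mk' (T := fun n => 2 * pb d n + pb e n + 1)
    ((((PB.const 2).mul (PB.pb d)).add (PB.pb e)).add (PB.const 1)) (fun a x => ?_) fun a x => ?_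
  · have e1 := (hd a x.1).trans (pb_mono d (Nat.add_le_add_left (ht_fst_le x) _))
    have e2 := (he a x.2).trans (pb_mono e (Nat.add_le_add_left (ht_snd_le x) _))
    have := esize_pair x.1 x.2
    simp only [Prod.mk.eta] at this
    omega
  · exact ht_prod_le.2 ⟨(h1.ht_le a _).trans (esize_fst_le x), (h2.ht_le a _).trans (esize_snd_le x)⟩

@[fun_prop]
theorem PTSz.list (h : PTSz β) : PTSz (fun a => List (β a)) := by
  obtain ⟨d, hd⟩ := h.size_le
  refine PTSz.mk' (T := fun n => n * (2 * pb d n + 1))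
    (PB.id.mul (((PB.const 2).mul (PB.pb d)).add (PB.const 1))) (fun a l => ?_) fun a l => ?_
  · refine (esize_list_le (B := pb d (esize a + ht l)) fun x hx =>
      (hd a x).trans (pb_mono d (Nat.add_le_add_left (ht_le_of_mem hx) _))).trans ?_
    exact Nat.mul_le_mul_right _ ((length_le_ht l).trans (Nat.le_add_left _ _))
  · exact ht_list_le.2 ⟨length_le_esize l, fun x hx => (h.ht_le a x).trans (esize_le_of_mem hx)⟩

@[fun_prop]
theorem PTSz.option (h : PTSz β) : PTSz (fun a => Option (β a)) := by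
  obtain ⟨d, hd⟩ := h.size_le
  refine PTSz.mk' (T := fun n => pb d n + 1) ((PB.pb d).add (PB.const 1)) (fun a o => ?_)
    fun a o => ?_
  · cases o with
    | none => exact Nat.zero_le _
    | some x => exact Nat.succ_le_succ (hd a x)
  · cases o with
    | none => exact Nat.zero_le _
    | some x => exact (h.ht_le a x).trans (Nat.le_succ _)

@[fun_prop]
theorem PTSz.subtype {p : ∀ a, β a → Prop} (h : PTSz β) : PTSz (fun a => Subtype (p a)) := by
  obtain ⟨d, hd⟩ := h.size_le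
  exact ⟨⟨d, fun a x => hd a x.1⟩, fun a x => h.ht_le a x.1⟩

instance : SzConst ℕ := ⟨PTSz.mk' PB.id (fun _ x => by rw [esize_nat, ht_nat]; omega)
  fun _ x => (esize_nat x).ge⟩
instance : SzConst Bool := ⟨PTSz.mk' (PB.const 1) (fun _ _ => le_rfl) fun _ _ => Nat.zero_le _⟩
instance : SzConst Unit := ⟨PTSz.mk' (PB.const 0) (fun _ _ => le_rfl) fun _ _ => Nat.zero_le _⟩
instance {κ μ : Type} [Enc κ] [Ht κ] [SzConst κ] [Enc μ] [Ht μ] [SzConst μ] : SzConst (κ × μ) :=
  ⟨PTSz.prod SzConst.sz SzConst.sz⟩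
instance {κ : Type} [Enc κ] [Ht κ] [SzConst κ] : SzConst (List κ) := ⟨PTSz.list SzConst.sz⟩
instance {κ : Type} [Enc κ] [Ht κ] [SzConst κ] : SzConst (Option κ) := ⟨PTSz.option SzConst.sz⟩

@[fun_prop]
theorem pbd_ht {f : ∀ a, β a} (h : PTSz β) (hf : DPT f) : PBd (fun a => ht (f a)) :=
  hf.pbd.mono fun a => h.ht_le a _

theorem PTSz.pbd (h : PTSz β) {b : α → ℕ} (hb : PBd b) :
    ∃ b' : α → ℕ, PBd b' ∧ ∀ a (x : β a), ht x ≤ b a → esize x ≤ b' a := by
  obtain ⟨d, hd⟩ := h.size_le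
  obtain ⟨e, he⟩ := hb
  refine ⟨fun a => pb d (esize a + pb e (esize a)),
    PBd.of_PB ((PB.pb d).comp (PB.id.add (PB.pb e))), fun a x hx => (hd a x).trans (pb_mono d ?_)⟩
  have := he a
  omega

/-! ### Loops with bounds on the height -/

theorem DPT.foldl_ht {l : ∀ a, List (γ a)} {s : ∀ a, β a} {f : ∀ a, β a → γ a → β a}
    (hβ : PTSz β) (hl : DPT l) (hs : DPT s)
    (hf : DPT (fun p : Σ a, β a × {x // x ∈ l a} => f p.1 p.2.1 p.2.2.1)) {b : α → ℕ} (hb : PBd b)
    (h : ∀ a i, ht (((l a).take i).foldl (f a) (s a)) ≤ b a) :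
    DPT (fun a => (l a).foldl (f a) (s a)) := by
  obtain ⟨b', hb', h'⟩ := hβ.pbd hb
  exact DPT.foldl hl hs hf hb' fun a i => h' a _ (h a i)

theorem ht_foldl_le {κ ι : Type} [Ht κ] {l : List ι} {s : κ} {f : κ → ι → κ} {B : ℕ}
    (h0 : ht s ≤ B) (h : ∀ u, ∀ x ∈ l, ht u ≤ B → ht (f u x) ≤ B) : ht (l.foldl f s) ≤ B := by
  induction l generalizing s with
  | nil => exact h0
  | cons x l ih =>
    exact ih (h s x List.mem_cons_self h0) fun u y hy => h u y (List.mem_cons_of_mem _ hy)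

theorem ht_foldl_le_add {κ ι : Type} [Ht κ] {l : List ι} {s : κ} {f : κ → ι → κ} {B : ℕ}
    (h : ∀ u, ∀ x ∈ l, ht (f u x) ≤ ht u + B) : ht (l.foldl f s) ≤ ht s + l.length * B := by
  induction l generalizing s with
  | nil => simp
  | cons x l ih =>
    refine (ih fun u y hy => h u y (List.mem_cons_of_mem _ hy)).trans ?_
    have := h s x List.mem_cons_self
    rw [List.length_cons, add_mul]
    omega

/-- the height bound is an invariant of the loop -/
theorem DPT.foldl_inv {l : ∀ a, List (γ a)} {s : ∀ a, β a} {f : ∀ a, β a → γ a → β a}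
    (hβ : PTSz β) (hl : DPT l) (hs : DPT s)
    (hf : DPT (fun p : Σ a, β a × {x // x ∈ l a} => f p.1 p.2.1 p.2.2.1)) {b : α → ℕ} (hb : PBd b)
    (h0 : ∀ a, ht (s a) ≤ b a) (h : ∀ a u, ∀ x ∈ l a, ht u ≤ b a → ht (f a u x) ≤ b a) :
    DPT (fun a => (l a).foldl (f a) (s a)) :=
  DPT.foldl_ht hβ hl hs hf hb fun a _ =>
    ht_foldl_le (h0 a) fun u x hx => h a u x (List.mem_of_mem_take hx)

/-- the height grows at most additively in each round -/
theorem DPT.foldl_grow {l : ∀ a, List (γ a)} {s : ∀ a, β a} {f : ∀ a, β a → γ a → β a}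
    (hβ : PTSz β) (hl : DPT l) (hs : DPT s)
    (hf : DPT (fun p : Σ a, β a × {x // x ∈ l a} => f p.1 p.2.1 p.2.2.1)) {b : α → ℕ} (hb : PBd b)
    (h : ∀ a u, ∀ x ∈ l a, ht (f a u x) ≤ ht u + b a) :
    DPT (fun a => (l a).foldl (f a) (s a)) := by
  refine DPT.foldl_ht hβ hl hs hf (b := fun a => ht (s a) + (l a).length * b a)
    ((pbd_ht hβ hs).add ((pbd_length hl).mul hb)) fun a i => ?_
  refine (ht_foldl_le_add fun u x hx => h a u x (List.mem_of_mem_take hx)).trans ?_
  exact Nat.add_le_add_left (Nat.mul_le_mul_right _ (List.length_take_le' _ _)) _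

/-- loops whose state has height zero -/
@[fun_prop]
theorem DPT.foldl_zero [∀ a, HtZero (β a)] {l : ∀ a, List (γ a)} {s : ∀ a, β a}
    {f : ∀ a, β a → γ a → β a} (hβ : PTSz β) (hl : DPT l) (hs : DPT s)
    (hf : DPT (fun p : Σ a, β a × {x // x ∈ l a} => f p.1 p.2.1 p.2.2.1)) :
    DPT (fun a => (l a).foldl (f a) (s a)) :=
  DPT.foldl_ht hβ hl hs hf (PBd.const 0) fun _ _ => (ht_eq_zero _).le

theorem DPT.iterate_ht {k : α → ℕ} {s : ∀ a, β a} {f : ∀ a, β a → β a} (hβ : PTSz β) (hk : DPT k)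
    (hkb : PBd k) (hs : DPT s) (hf : DPT (fun p : Σ a, β a => f p.1 p.2)) {b : α → ℕ} (hb : PBd b)
    (h : ∀ a, ∀ j ≤ k a, ht ((f a)^[j] (s a)) ≤ b a) : DPT (fun a => (f a)^[k a] (s a)) := by
  obtain ⟨b', hb', h'⟩ := hβ.pbd hb
  exact DPT.iterate hk hkb hs hf hb' fun a j hj => h' a _ (h a j hj)

theorem ht_iterate_le {κ : Type} [Ht κ] {s : κ} {f : κ → κ} {B : ℕ} (h0 : ht s ≤ B)
    (h : ∀ u, ht u ≤ B → ht (f u) ≤ B) (j : ℕ) : ht (f^[j] s) ≤ B := by
  induction j with
  | zero => exact h0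
  | succ j ih => rw [Function.iterate_succ_apply']; exact h _ ih

theorem ht_iterate_le_add {κ : Type} [Ht κ] {s : κ} {f : κ → κ} {B : ℕ}
    (h : ∀ u, ht (f u) ≤ ht u + B) (j : ℕ) : ht (f^[j] s) ≤ ht s + j * B := by
  induction j with
  | zero => simp
  | succ j ih =>
    rw [Function.iterate_succ_apply', add_mul]
    have := h (f^[j] s)
    omega

theorem DPT.iterate_inv {k : α → ℕ} {s : ∀ a, β a} {f : ∀ a, β a → β a} (hβ : PTSz β) (hk : DPT k)
    (hkb : PBd k) (hs : DPT s) (hf : DPT (fun p : Σ a, β a => f p.1 p.2)) {b : α → ℕ} (hb : PBd b)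
    (h0 : ∀ a, ht (s a) ≤ b a) (h : ∀ a u, ht u ≤ b a → ht (f a u) ≤ b a) :
    DPT (fun a => (f a)^[k a] (s a)) :=
  DPT.iterate_ht hβ hk hkb hs hf hb fun a j _ => ht_iterate_le (h0 a) (h a) j

theorem DPT.iterate_grow {k : α → ℕ} {s : ∀ a, β a} {f : ∀ a, β a → β a} (hβ : PTSz β) (hk : DPT k)
    (hkb : PBd k) (hs : DPT s) (hf : DPT (fun p : Σ a, β a => f p.1 p.2)) {b : α → ℕ} (hb : PBd b)
    (h : ∀ a u, ht (f a u) ≤ ht u + b a) : DPT (fun a => (f a)^[k a] (s a)) :=
  DPT.iterate_ht hβ hk hkb hs hf (b := fun a => ht (s a) + k a * b a)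
    ((pbd_ht hβ hs).add (hkb.mul hb)) fun a j hj =>
      (ht_iterate_le_add (h a) j).trans (Nat.add_le_add_left (Nat.mul_le_mul_right _ hj) _)

@[fun_prop]
theorem DPT.iterate_zero [∀ a, HtZero (β a)] {k : α → ℕ} {s : ∀ a, β a} {f : ∀ a, β a → β a}
    (hβ : PTSz β) (hk : DPT k) (hkb : PBd k) (hs : DPT s)
    (hf : DPT (fun p : Σ a, β a => f p.1 p.2)) : DPT (fun a => (f a)^[k a] (s a)) :=
  DPT.iterate_ht hβ hk hkb hs hf (PBd.const 0) fun _ _ _ => (ht_eq_zero _).le

end Sz

/-! ### Rings -/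

/-- Rings with an injective code and a height which behaves like a degree. -/
class Code (R : Type) [CommRing R] extends Enc R, Ht R where
  enc_inj : Function.Injective enc
  ht_zero : ht 0 = 0
  ht_one : ht 1 = 0
  ht_add_le : ∀ x y, ht (x + y) ≤ max (ht x) (ht y)
  ht_neg_le : ∀ x, ht (-x) ≤ ht x
  ht_mul_le : ∀ x y, ht (x * y) ≤ ht x + ht y

section RingHt

variable {R : Type} [CommRing R] [Code R]

instance : EncInj R := ⟨Code.enc_inj⟩

@[simp] theorem ht_zero : ht (0 : R) = 0 := Code.ht_zero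

@[simp] theorem ht_one : ht (1 : R) = 0 := Code.ht_one

theorem ht_add_le (x y : R) : ht (x + y) ≤ max (ht x) (ht y) := Code.ht_add_le x y

theorem ht_mul_le (x y : R) : ht (x * y) ≤ ht x + ht y := Code.ht_mul_le x y

@[simp] theorem ht_neg (x : R) : ht (-x) = ht x :=
  le_antisymm (Code.ht_neg_le x) (by simpa using Code.ht_neg_le (-x))

theorem ht_sub_le (x y : R) : ht (x - y) ≤ max (ht x) (ht y) := by
  rw [sub_eq_add_neg]
  simpa using ht_add_le x (-y)

theorem ht_add_le_of {x y : R} {B : ℕ} (hx : ht x ≤ B) (hy : ht y ≤ B) : ht (x + y) ≤ B :=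
  (ht_add_le x y).trans (max_le hx hy)

theorem ht_sub_le_of {x y : R} {B : ℕ} (hx : ht x ≤ B) (hy : ht y ≤ B) : ht (x - y) ≤ B :=
  (ht_sub_le x y).trans (max_le hx hy)

theorem ht_mul_le_of {x y : R} {B C : ℕ} (hx : ht x ≤ B) (hy : ht y ≤ C) : ht (x * y) ≤ B + C :=
  (ht_mul_le x y).trans (add_le_add hx hy)

theorem ht_pow_le (x : R) (n : ℕ) : ht (x ^ n) ≤ n * ht x := by
  induction n with
  | zero => simp
  | succ n ih => rw [pow_succ, add_mul, one_mul]; exact ht_mul_le_of ih le_rfl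

@[simp] theorem ht_natCast (n : ℕ) : ht (n : R) = 0 := by
  induction n with
  | zero => simp
  | succ n ih => rw [Nat.cast_succ]; exact Nat.le_zero.1 (ht_add_le_of ih.le ht_one.le)

theorem ht_list_sum_le {l : List R} {B : ℕ} (h : ∀ x ∈ l, ht x ≤ B) : ht l.sum ≤ B := by
  induction l with
  | nil => simp
  | cons x l ih =>
    rw [List.sum_cons]
    exact ht_add_le_of (h x List.mem_cons_self) (ih fun y hy => h y (List.mem_cons_of_mem _ hy))

theorem ht_list_prod_le {l : List R} {B : ℕ} (h : ∀ x ∈ l, ht x ≤ B) :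
    ht l.prod ≤ l.length * B := by
  induction l with
  | nil => simp
  | cons x l ih =>
    rw [List.prod_cons, List.length_cons, add_mul, one_mul, add_comm]
    exact ht_mul_le_of (h x List.mem_cons_self) (ih fun y hy => h y (List.mem_cons_of_mem _ hy))

theorem ht_sum_le {ι : Type*} {s : Finset ι} {f : ι → R} {B : ℕ} (h : ∀ i ∈ s, ht (f i) ≤ B) :
    ht (∑ i ∈ s, f i) ≤ B :=
  Finset.sum_induction f (fun x => ht x ≤ B) (fun _ _ => ht_add_le_of) (by simp) h

theorem ht_prod_le_of {ι : Type*} {s : Finset ι} {f : ι → R} {B : ℕ} (h : ∀ i ∈ s, ht (f i) ≤ B) :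
    ht (∏ i ∈ s, f i) ≤ s.card * B := by
  classical
  induction s using Finset.induction_on with
  | empty => simp
  | insert i s hi ih =>
    rw [Finset.prod_insert hi, Finset.card_insert_of_notMem hi, add_mul, one_mul, add_comm]
    exact ht_mul_le_of (h i (Finset.mem_insert_self _ _))
      (ih fun j hj => h j (Finset.mem_insert_of_mem hj))

end RingHt

/-- A family of rings whose operations are computable in polynomial time. -/
@[fun_prop]
structure PTRing (S : α → Type) [∀ a, CommRing (S a)] [∀ a, Code (S a)] : Prop where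
  zero : DPT (fun a => (0 : S a))
  one : DPT (fun a => (1 : S a))
  add : DPT (fun p : Σ a, S a × S a => p.2.1 + p.2.2)
  mul : DPT (fun p : Σ a, S a × S a => p.2.1 * p.2.2)
  neg : DPT (fun p : Σ a, S a => -p.2)
  sz : PTSz S

section Ring

variable {S : α → Type} [∀ a, CommRing (S a)] [∀ a, Code (S a)]

@[fun_prop]
theorem PTRing.toPTSz (hS : PTRing S) : PTSz S := hS.sz

@[fun_prop]
theorem DPT.zero (hS : PTRing S) : DPT (fun a => (0 : S a)) := hS.zero

@[fun_prop]
theorem DPT.one (hS : PTRing S) : DPT (fun a => (1 : S a)) := hS.one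

@[fun_prop]
theorem DPT.add {f g : ∀ a, S a} (hS : PTRing S) (hf : DPT f) (hg : DPT g) :
    DPT (fun a => f a + g a) := DPT.app2 (F := fun _ x y => x + y) hS.add hf hg

@[fun_prop]
theorem DPT.mul {f g : ∀ a, S a} (hS : PTRing S) (hf : DPT f) (hg : DPT g) :
    DPT (fun a => f a * g a) := DPT.app2 (F := fun _ x y => x * y) hS.mul hf hg

@[fun_prop]
theorem DPT.neg {f : ∀ a, S a} (hS : PTRing S) (hf : DPT f) : DPT (fun a => - f a) :=
  DPT.app (F := fun _ x => -x) hS.neg hf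

@[fun_prop]
theorem DPT.sub {f g : ∀ a, S a} (hS : PTRing S) (hf : DPT f) (hg : DPT g) :
    DPT (fun a => f a - g a) :=
  (DPT.add hS hf (DPT.neg hS hg)).congr fun _ => (sub_eq_add_neg _ _).symm

@[fun_prop]
theorem PTRing.comp {κ : Type} [Enc κ] {c : κ → α} (hS : PTRing S) (hc : DPT c) :
    PTRing (fun x => S (c x)) where
  zero := hS.zero.comp hc
  one := hS.one.comp hc
  add := DPT.comp (f := fun p : Σ x, S (c x) × S (c x) => (⟨c p.1, p.2⟩ : Σ a, S a × S a)) hS.add
    (DPT.smk (hc.comp DPT.id.sfst) DPT.ssnd)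
  mul := DPT.comp (f := fun p : Σ x, S (c x) × S (c x) => (⟨c p.1, p.2⟩ : Σ a, S a × S a)) hS.mul
    (DPT.smk (hc.comp DPT.id.sfst) DPT.ssnd)
  neg := DPT.comp (f := fun p : Σ x, S (c x) => (⟨c p.1, p.2⟩ : Σ a, S a)) hS.neg
    (DPT.smk (hc.comp DPT.id.sfst) DPT.ssnd)
  sz := hS.sz.comp hc

@[fun_prop]
theorem DPT.sum {l : ∀ a, List (S a)} (hS : PTRing S) (hl : DPT l) : DPT (fun a => (l a).sum) := by
  refine (DPT.foldl_inv (f := fun _ u x => u + x) hS.sz hl hS.zero (by fun_prop)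
    (pbd_ht hS.sz.list hl) (fun _ => by simp)
    fun a u x hx hu => ht_add_le_of hu (ht_le_of_mem hx)).congr fun a => ?_
  rw [List.sum_eq_foldl]

@[fun_prop]
theorem DPT.prod {l : ∀ a, List (S a)} (hS : PTRing S) (hl : DPT l) :
    DPT (fun a => (l a).prod) := by
  refine (DPT.foldl_grow (f := fun _ u x => u * x) hS.sz hl hS.one (by fun_prop)
    (pbd_ht hS.sz.list hl) fun a u x hx => ht_mul_le_of le_rfl (ht_le_of_mem hx)).congr fun a => ?_
  rw [List.prod_eq_foldl]

theorem sum_map_range {M : Type*} [AddCommMonoid M] (f : ℕ → M) (n : ℕ) :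
    ((List.range n).map f).sum = ∑ i ∈ Finset.range n, f i := by
  simp [Finset.sum, Finset.range, Multiset.range]

theorem prod_map_range {M : Type*} [CommMonoid M] (f : ℕ → M) (n : ℕ) :
    ((List.range n).map f).prod = ∏ i ∈ Finset.range n, f i := by
  simp [Finset.prod, Finset.range, Multiset.range]

@[fun_prop]
theorem DPT.sum_range {n : α → ℕ} {f : ∀ a, ℕ → S a} (hS : PTRing S) (hn : DPT n) (hb : PBd n)
    (hf : DPT (fun p : Σ a, {x // x ∈ List.range (n a)} => f p.1 p.2.1)) :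
    DPT (fun a => ∑ i ∈ Finset.range (n a), f a i) :=
  (DPT.sum hS (DPT.map (hn.range hb) hf)).congr fun _ => sum_map_range _ _

@[fun_prop]
theorem DPT.prod_range {n : α → ℕ} {f : ∀ a, ℕ → S a} (hS : PTRing S) (hn : DPT n) (hb : PBd n)
    (hf : DPT (fun p : Σ a, {x // x ∈ List.range (n a)} => f p.1 p.2.1)) :
    DPT (fun a => ∏ i ∈ Finset.range (n a), f a i) :=
  (DPT.prod hS (DPT.map (hn.range hb) hf)).congr fun _ => prod_map_range _ _

theorem foldl_bits_pow {R : Type} [CommRing R] (x : R) (n : ℕ) :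
    n.bits.reverse.foldl (fun u b => u * u * bif b then x else 1) 1 = x ^ n := by
  induction n using Nat.binaryRec' with
  | zero => simp
  | bit b n h ih =>
    rw [Nat.bits_append_bit _ _ h, List.reverse_cons, List.foldl_append, ih]
    cases b <;> simp [Nat.bit_val, pow_succ, two_mul, pow_add]

theorem foldl_bits_cast {R : Type} [CommRing R] (n : ℕ) :
    n.bits.reverse.foldl (fun u b => u + u + bif b then (1 : R) else 0) 0 = n := by
  induction n using Nat.binaryRec' with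
  | zero => simp
  | bit b n h ih =>
    rw [Nat.bits_append_bit _ _ h, List.reverse_cons, List.foldl_append, ih]
    cases b <;> simp [Nat.bit_val, two_mul]

/-- powers with the exponent in binary, in rings of height zero -/
@[fun_prop]
theorem DPT.pow_zero [∀ a, HtZero (S a)] {f : ∀ a, S a} {n : α → ℕ} (hS : PTRing S) (hf : DPT f)
    (hn : DPT n) : DPT (fun a => f a ^ n a) :=
  (DPT.foldl_zero (γ := fun _ => Bool) (f := fun a u b => u * u * bif b then f a else 1) hS.sz
    (l := fun a => (n a).bits.reverse) (by fun_prop) hS.one (by fun_prop)).congr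
    fun _ => foldl_bits_pow _ _

/-- powers with the exponent in unary -/
@[fun_prop]
theorem DPT.pow {f : ∀ a, S a} {n : α → ℕ} (hS : PTRing S) (hb : PBd n) (hf : DPT f)
    (hn : DPT n) : DPT (fun a => f a ^ n a) :=
  (DPT.prod hS (DPT.replicate hn hb hf)).congr fun _ => List.prod_replicate _ _

@[fun_prop]
theorem DPT.natCast {n : α → ℕ} (hS : PTRing S) (hn : DPT n) : DPT (fun a => (n a : S a)) := by
  refine (DPT.foldl_inv (γ := fun _ => Bool)
    (f := fun a u b => u + u + bif b then (1 : S a) else 0) hS.sz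
    (l := fun a => (n a).bits.reverse) (by fun_prop) hS.zero (by fun_prop) (PBd.const 0)
    (fun _ => by simp) fun a u b _ hu => ?_).congr fun _ => foldl_bits_cast _
  exact ht_add_le_of (ht_add_le_of hu hu) (by cases b <;> simp)

@[fun_prop]
theorem DPT.ofNat (n : ℕ) [n.AtLeastTwo] (hS : PTRing S) :
    DPT (fun a => (OfNat.ofNat n : S a)) := DPT.natCast (n := fun _ => n) hS (DPT.const n)

@[fun_prop]
theorem DPT.smul_self {f g : ∀ a, S a} (hS : PTRing S) (hf : DPT f) (hg : DPT g) :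
    DPT (fun a => f a • g a) := DPT.mul hS hf hg

end Ring

/-! ### Residue rings of the integers -/

instance (p : ℕ) [NeZero p] : Code (ZMod p) where
  enc x := enc x.val
  ht _ := 0
  enc_inj := fun _ _ h => ZMod.val_injective p (EncInj.inj (α := ℕ) h)
  ht_zero := rfl
  ht_one := rfl
  ht_add_le _ _ := Nat.zero_le _
  ht_neg_le _ := le_rfl
  ht_mul_le _ _ := le_rfl

instance (p : ℕ) [NeZero p] : HtZero (ZMod p) := ⟨fun _ => rfl⟩

theorem enc_zmod {p : ℕ} [NeZero p] (x : ZMod p) : enc x = enc x.val := rfl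

section ZMod

variable {p : α → ℕ} [∀ a, NeZero (p a)]

@[fun_prop]
theorem DPT.zmodVal {f : ∀ a, ZMod (p a)} (hf : DPT f) : DPT (fun a => (f a).val) := hf

@[fun_prop]
theorem PTRing.zmod (hp : DPT p) : PTRing (fun a => ZMod (p a)) := by
  have hc : ∀ {κ : Type} [Enc κ] {c : κ → α} {n : κ → ℕ}, DPT c → DPT n →
      DPT (fun x => (n x : ZMod (p (c x)))) := fun hc hn =>
    (DPT.natMod hn (hp.comp hc)).of_enc fun x => by rw [enc_zmod, ZMod.val_natCast]
  refine ⟨(hc DPT.id (DPT.const 0)).congr fun _ => Nat.cast_zero,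
    (hc DPT.id (DPT.const 1)).congr fun _ => Nat.cast_one, ?_, ?_, ?_, ?_⟩
  · refine (hc (n := fun q : Σ a, ZMod (p a) × ZMod (p a) => q.2.1.val + q.2.2.val) DPT.id.sfst
      (by fun_prop)).congr fun q => by simp
  · refine (hc (n := fun q : Σ a, ZMod (p a) × ZMod (p a) => q.2.1.val * q.2.2.val) DPT.id.sfst
      (by fun_prop)).congr fun q => by simp
  · refine (hc (n := fun q : Σ a, ZMod (p a) => p q.1 - q.2.val) DPT.id.sfst
      (by fun_prop)).congr fun q => ?_
    rw [Nat.cast_sub (ZMod.val_lt _).le]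
    simp
  · obtain ⟨c, hc⟩ := hp.pbd
    refine PTSz.mk' (PB.pb c) (fun a x => ?_) fun a x => Nat.zero_le _
    exact ((esize_nat_mono (ZMod.val_lt x).le).trans (hc a)).trans
      (pb_mono c (Nat.le_add_right _ _))

end ZMod

theorem zmod_inv_eq {p : ℕ} [Fact p.Prime] (x : ZMod p) :
    x⁻¹ = if x = 0 then 0 else x ^ (p - 2) := by
  split_ifs with h
  · rw [h, inv_zero]
  · have h2 := (Fact.out : p.Prime).two_le
    refine inv_eq_of_mul_eq_one_right ?_
    rw [← pow_succ', show p - 2 + 1 = p - 1 by omega]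
    exact ZMod.pow_card_sub_one_eq_one h

@[fun_prop]
theorem DPT.zmodInv {p : α → ℕ} [∀ a, Fact (p a).Prime] {f : ∀ a, ZMod (p a)} (hp : DPT p)
    (hf : DPT f) : DPT (fun a => (f a)⁻¹) := by
  have h1 : DPT (fun a => if f a = 0 then 0 else f a ^ (p a - 2)) := by fun_prop
  exact h1.congr fun a => (zmod_inv_eq _).symm

end Vale.Agent.Lib.Dep
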